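import Vale.Agent.P366.H208.CL.BdrX
import Vale.Agent.P366.CL.Flux

/-! Data foliated by the parallel surfaces of a convex body: the density is nonnegative. -/

open MeasureTheory Metric Filter Topology Set
open scoped ContDiff ENNReal

noncomputable section
namespace Vale.Agent.P366.Stmt.CLt

variable {n : ℕ}

/-- the norm of a covector for the metric `δ + w ν νᵀ` -/
lemma cov_rank {g : Field n} {y : E n} {ν : Fin n → ℝ} {w : ℝ} (one : ∑ i, ν i ^ 2 = 1)
    (hw : 0 < 1 + w) (hg : ∀ i j, g y i j = (if i = j then 1 else 0) + w * ν i * ν j)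
    (J : Fin n → E n → ℝ) :
    covNorm g J y ^ 2 = ∑ i, (J i y - (∑ k, J k y * ν k) * ν i) ^ 2 +
      (∑ k, J k y * ν k) ^ 2 / (1 + w) := by
  obtain ⟨q, hq⟩ : ∃ q, q = ∑ k, J k y * ν k := ⟨_, rfl⟩
  have e1 : ∑ i, (J i y - (∑ k, J k y * ν k) * ν i) ^ 2 = ∑ i, J i y ^ 2 - q ^ 2 := by
    rw [← hq]
    have e : ∀ i, (J i y - q * ν i) ^ 2 = J i y ^ 2 - 2 * q * (J i y * ν i) + q ^ 2 * ν i ^ 2 :=
      fun i => by ring
    simp only [e, Finset.sum_add_distrib, Finset.sum_sub_distrib, ← Finset.mul_sum, one, ← hq]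
    ring
  have e2 : ∑ i, ∑ j, up g i j y * J i y * J j y = ∑ i, J i y ^ 2 - w / (1 + w) * q ^ 2 := by
    have e : ∀ i, ∑ j, up g i j y * J i y * J j y = J i y ^ 2 -
        w / (1 + w) * q * (J i y * ν i) := by
      intro i
      have e' : ∀ j, up g i j y * J i y * J j y = (if i = j then J i y * J j y else 0) -
          w / (1 + w) * (J i y * ν i) * (J j y * ν j) := by
        intro j
        rw [up_rank one hw hg]
        split_ifs <;> ring
      simp only [e', Finset.sum_sub_distrib, Finset.sum_ite_eq, Finset.mem_univ, if_true,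
        ← Finset.mul_sum, ← hq]
      ring
    simp only [e, Finset.sum_sub_distrib, ← Finset.mul_sum, ← hq]
    ring
  have e3 : ∑ i, J i y ^ 2 - w / (1 + w) * q ^ 2 =
      ∑ i, (J i y - (∑ k, J k y * ν k) * ν i) ^ 2 + q ^ 2 / (1 + w) := by
    rw [e1]
    have hw' : (1 + w) ≠ 0 := hw.ne'
    field_simp
    ring
  unfold covNorm
  rw [Real.sq_sqrt]
  · rw [e2, e3, ← hq]
  · rw [e2, e3]
    exact add_nonneg (Finset.sum_nonneg fun i _ => sq_nonneg _)
      (div_nonneg (sq_nonneg _) hw.le)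

lemma cov_ge {g : Field n} {y : E n} {ν : Fin n → ℝ} {w : ℝ} (one : ∑ i, ν i ^ 2 = 1)
    (hw : 0 < 1 + w) (hg : ∀ i j, g y i j = (if i = j then 1 else 0) + w * ν i * ν j)
    (J : Fin n → E n → ℝ) : |(∑ k, J k y * ν k) / √(1 + w)| ≤ covNorm g J y := by
  have h1 := cov_rank one hw hg J
  have h0 : 0 ≤ covNorm g J y := Real.sqrt_nonneg _
  refine abs_le_of_sq_le_sq ?_ h0
  rw [h1, div_pow, Real.sq_sqrt hw.le]
  have : 0 ≤ ∑ i, (J i y - (∑ k, J k y * ν k) * ν i) ^ 2 :=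
    Finset.sum_nonneg fun i _ => sq_nonneg _
  linarith

lemma cov_zero {g : Field n} {y : E n} {ν : Fin n → ℝ} {w : ℝ} (one : ∑ i, ν i ^ 2 = 1)
    (hw : 0 < 1 + w) (hg : ∀ i j, g y i j = (if i = j then 1 else 0) + w * ν i * ν j)
    {J : Fin n → E n → ℝ} (h : covNorm g J y = 0) (i : Fin n) : J i y = 0 := by
  have h1 := cov_rank one hw hg J
  rw [h] at h1
  have h2 : 0 ≤ ∑ i, (J i y - (∑ k, J k y * ν k) * ν i) ^ 2 :=
    Finset.sum_nonneg fun i _ => sq_nonneg _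
  have h3 : 0 ≤ (∑ k, J k y * ν k) ^ 2 / (1 + w) := div_nonneg (sq_nonneg _) hw.le
  have h4 : (∑ k, J k y * ν k) ^ 2 / (1 + w) = 0 := by linarith
  have h5 : ∑ k, J k y * ν k = 0 := by
    have := (div_eq_zero_iff.1 h4).resolve_right hw.ne'
    exact pow_eq_zero_iff two_ne_zero |>.1 this
  have h6 : ∑ i, (J i y - (∑ k, J k y * ν k) * ν i) ^ 2 = 0 := by linarith
  have h7 := (Finset.sum_eq_zero_iff_of_nonneg fun i _ => sq_nonneg _).1 h6 i (Finset.mem_univ i)
  rw [h5, zero_mul, sub_zero] at h7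
  exact pow_eq_zero_iff two_ne_zero |>.1 h7

end Vale.Agent.P366.Stmt.CLt

namespace Vale.Agent.P366.CLam

open Vale.Agent.P366 (pd E flux)
open Vale.Agent.P366.Kerr (NullCone Psi)
open Vale.Agent.P366.CL (IsLeafExt XL lapL col nn trL kap rat alf sig grd acc den LeafAt)
open Vale.Agent.P366.KSN (Y)

variable {n : ℕ} {C : NullCone n} {lam W : E n → ℝ} {D : Stmt.Exterior n} {x y : E n} {s : ℝ}

lemma sgsq (hL : IsLeafExt C lam W D) (hy : 0 ≤ D.F y) : ∑ i, Stmt.pd i lam y ^ 2 = 1 := by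
  rw [← gsq_lam' hL.toLamS hy]
  exact Finset.sum_congr rfl fun i _ => by rw [CL.spd_eq (hL.smL y hy)]

lemma lapL_pos' [Fact (3 ≤ n)] (hL : IsLeafExt C lam W D) (hy : 0 ≤ D.F y) :
    0 < lapL lam y := by
  obtain ⟨x, s, hx, hs, rfl⟩ := (mem_iff hL.toLamS).1 hy
  exact lapL_pos hL hx hs

/-- `|τ| ≤ H` -/
lemma rat_le [Fact (3 ≤ n)] (hL : IsLeafExt C lam W D) (hy : 0 ≤ D.F y)
    (h : |trL lam D.K y| ≤ lapL lam y / √(1 + W y)) : |rat lam W D.K y| ≤ 1 := by
  have h1 := lapL_pos' hL hy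
  have h2 := Real.sqrt_pos.2 (one_W_pos hL hy)
  unfold rat kap
  rw [abs_mul, abs_div, abs_of_pos h1, abs_of_pos h2, div_mul_eq_mul_div, div_le_one h1]
  rwa [le_div_iff₀ h2] at h

lemma rat_lt [Fact (3 ≤ n)] (hL : IsLeafExt C lam W D) (hy : 0 ≤ D.F y)
    (h : |trL lam D.K y| < lapL lam y / √(1 + W y)) : |rat lam W D.K y| < 1 := by
  have h1 := lapL_pos' hL hy
  have h2 := Real.sqrt_pos.2 (one_W_pos hL hy)
  unfold rat kap
  rw [abs_mul, abs_div, abs_of_pos h1, abs_of_pos h2, div_mul_eq_mul_div, div_lt_one h1]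
  rwa [lt_div_iff₀ h2] at h

/-- The density as a sum of five terms, nonnegative if `|T| ≤ 1`. -/
lemma den_eq (lam W : E n → ℝ) (g K : Stmt.Field n) (y : E n) : den lam W g K y =
    (Stmt.mu g K y - rat lam W K y * ((∑ i, Stmt.mom g K i y * Stmt.pd i lam y) / √(1 + W y))) +
    (∑ i, ∑ j, sig lam K i j y ^ 2) / 2 +
    ∑ i, (acc lam W i y + rat lam W K y * alf lam W K i y) ^ 2 +
    ((1 - rat lam W K y ^ 2) * (∑ i, alf lam W K i y ^ 2) -
      ∑ i, alf lam W K i y * grd lam (rat lam W K) i y) := by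
  have e : ∑ i, (acc lam W i y + rat lam W K y * alf lam W K i y) ^ 2 =
      ∑ i, acc lam W i y ^ 2 + 2 * rat lam W K y * ∑ i, alf lam W K i y * acc lam W i y +
        rat lam W K y ^ 2 * ∑ i, alf lam W K i y ^ 2 := by
    rw [Finset.mul_sum, Finset.mul_sum, ← Finset.sum_add_distrib, ← Finset.sum_add_distrib]
    exact Finset.sum_congr rfl fun i _ => by ring
  rw [e]
  unfold den
  ring

/-- the term with the energy and momentum densities -/
lemma muJ_nonneg [Fact (3 ≤ n)] (hL : IsLeafExt C lam W D) (hD : D.DEC) (hy : 0 ≤ D.F y)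
    (h : |rat lam W D.K y| ≤ 1) : (1 - |rat lam W D.K y|) * Stmt.covNorm D.g
      (Stmt.mom D.g D.K) y ≤ Stmt.mu D.g D.K y - rat lam W D.K y *
        ((∑ i, Stmt.mom D.g D.K i y * Stmt.pd i lam y) / √(1 + W y)) := by
  have h1 := Stmt.CLt.cov_ge (sgsq hL hy) (one_W_pos hL hy) (hL.met y hy) (Stmt.mom D.g D.K)
  have h2 := hD y hy
  have h3 : rat lam W D.K y * ((∑ i, Stmt.mom D.g D.K i y * Stmt.pd i lam y) / √(1 + W y)) ≤
      |rat lam W D.K y| * Stmt.covNorm D.g (Stmt.mom D.g D.K) y := by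
    refine (le_abs_self _).trans ?_
    rw [abs_mul]
    exact mul_le_mul_of_nonneg_left h1 (abs_nonneg _)
  linarith

/-- The density is nonnegative at a point with `|τ| ≤ H` and `⟨α, ∇T⟩ ≤ (1 - T²) |α|²`. -/
theorem den_nonneg [Fact (3 ≤ n)] (hL : IsLeafExt C lam W D) (hD : D.DEC) (hy : 0 ≤ D.F y)
    (h : |trL lam D.K y| ≤ lapL lam y / √(1 + W y))
    (ha : ∑ i, alf lam W D.K i y * grd lam (rat lam W D.K) i y ≤
      (1 - rat lam W D.K y ^ 2) * ∑ i, alf lam W D.K i y ^ 2) :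
    0 ≤ den lam W D.g D.K y := by
  have h1 := rat_le hL hy h
  have h2 := muJ_nonneg hL hD hy h1
  have h3 : 0 ≤ Stmt.covNorm D.g (Stmt.mom D.g D.K) y := Real.sqrt_nonneg _
  have h4 : 0 ≤ (1 - |rat lam W D.K y|) * Stmt.covNorm D.g (Stmt.mom D.g D.K) y :=
    mul_nonneg (by linarith) h3
  have h5 : 0 ≤ ∑ i, ∑ j, sig lam D.K i j y ^ 2 :=
    Finset.sum_nonneg fun i _ => Finset.sum_nonneg fun j _ => sq_nonneg _
  have h6 : 0 ≤ ∑ i, (acc lam W i y + rat lam W D.K y * alf lam W D.K i y) ^ 2 :=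
    Finset.sum_nonneg fun i _ => sq_nonneg _
  rw [den_eq]
  linarith

/-- The case of equality: all terms of the density vanish. -/
theorem den_zero [Fact (3 ≤ n)] (hL : IsLeafExt C lam W D) (hD : D.DEC) (hy : 0 ≤ D.F y)
    (h : |trL lam D.K y| < lapL lam y / √(1 + W y))
    (ha : (∀ i, alf lam W D.K i y = 0) ∨
      ∑ i, alf lam W D.K i y * grd lam (rat lam W D.K) i y <
        (1 - rat lam W D.K y ^ 2) * ∑ i, alf lam W D.K i y ^ 2)
    (h0 : den lam W D.g D.K y ≤ 0) :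
    Stmt.mu D.g D.K y = 0 ∧ (∀ i, Stmt.mom D.g D.K i y = 0) ∧ (∀ i j, sig lam D.K i j y = 0) ∧
      (∀ i, alf lam W D.K i y = 0) ∧ ∀ i, acc lam W i y = 0 := by
  have h1 := rat_lt hL hy h
  have h2 := muJ_nonneg hL hD hy h1.le
  have h3 : 0 ≤ Stmt.covNorm D.g (Stmt.mom D.g D.K) y := Real.sqrt_nonneg _
  have h4 : 0 ≤ (1 - |rat lam W D.K y|) * Stmt.covNorm D.g (Stmt.mom D.g D.K) y :=
    mul_nonneg (by linarith) h3
  have h5 : 0 ≤ ∑ i, ∑ j, sig lam D.K i j y ^ 2 :=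
    Finset.sum_nonneg fun i _ => Finset.sum_nonneg fun j _ => sq_nonneg _
  have h6 : 0 ≤ ∑ i, (acc lam W i y + rat lam W D.K y * alf lam W D.K i y) ^ 2 :=
    Finset.sum_nonneg fun i _ => sq_nonneg _
  rw [den_eq] at h0
  have hα : ∀ i, alf lam W D.K i y = 0 := by
    rcases ha with ha | ha
    · exact ha
    · exfalso
      linarith
  have h7 : (1 - rat lam W D.K y ^ 2) * (∑ i, alf lam W D.K i y ^ 2) -
      ∑ i, alf lam W D.K i y * grd lam (rat lam W D.K) i y = 0 := by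
    simp [hα]
  rw [h7] at h0
  have h8 : (1 - |rat lam W D.K y|) * Stmt.covNorm D.g (Stmt.mom D.g D.K) y = 0 := by linarith
  have h9 : Stmt.covNorm D.g (Stmt.mom D.g D.K) y = 0 :=
    (mul_eq_zero.1 h8).resolve_left (by linarith)
  have hJ := Stmt.CLt.cov_zero (sgsq hL hy) (one_W_pos hL hy) (hL.met y hy)
    (J := Stmt.mom D.g D.K) h9
  have hμ0 := hD y hy
  rw [h9] at hμ0
  simp only [hJ, zero_mul, Finset.sum_const_zero, zero_div, mul_zero, sub_zero] at h0 h2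
  refine ⟨by linarith, hJ, ?_, hα, ?_⟩
  · intro i j
    have h10 : ∑ i, ∑ j, sig lam D.K i j y ^ 2 = 0 := by linarith
    have h11 := (Finset.sum_eq_zero_iff_of_nonneg fun i _ =>
      Finset.sum_nonneg fun j _ => sq_nonneg _).1 h10 i (Finset.mem_univ i)
    have h12 := (Finset.sum_eq_zero_iff_of_nonneg fun j _ => sq_nonneg _).1 h11 j
      (Finset.mem_univ j)
    exact pow_eq_zero_iff two_ne_zero |>.1 h12
  · intro i
    have h10 : ∑ i, (acc lam W i y + rat lam W D.K y * alf lam W D.K i y) ^ 2 = 0 := by linarith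
    have h11 := (Finset.sum_eq_zero_iff_of_nonneg fun i _ => sq_nonneg _).1 h10 i
      (Finset.mem_univ i)
    rw [hα, mul_zero, add_zero] at h11
    exact pow_eq_zero_iff two_ne_zero |>.1 h11

end Vale.Agent.P366.CLam
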