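import Vale.Agent.P366.H353.CL.Alg

/-! Algebra: the norm of a symmetric tensor with respect to `δ - ω a ⊗ a`. -/

noncomputable section
namespace Vale.Agent.P366.CLam

open Vale.Agent.P366.CL (c1)

variable {n : ℕ} {a c : Fin n → ℝ} {b K : Fin n → Fin n → ℝ} {ω ν κ : ℝ}

/-- the squared norm -/
lemma ns1 (hK : ∀ i j, K i j = K j i) (hc : ∀ i, ∑ j, K i j * a j = c i)
    (hν : ∑ i, c i * a i = ν) :
    ∑ i, ∑ j, ∑ k, ∑ l, ((if i = k then 1 else 0) - ω * a i * a k) *
      ((if j = l then 1 else 0) - ω * a j * a l) * K i j * K k l =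
    ∑ i, ∑ j, K i j ^ 2 - 2 * ω * ∑ i, c i ^ 2 + ω ^ 2 * ν ^ 2 := by
  have hc' : ∀ k, ∑ l, a l * K k l = c k := fun k => by
    rw [← hc k]
    exact Finset.sum_congr rfl fun l _ => mul_comm _ _
  have hc'' : ∀ j, ∑ k, a k * K k j = c j := fun j => by
    rw [← hc j]
    exact Finset.sum_congr rfl fun k _ => by rw [hK k j]; ring
  have hν' : ∑ k, a k * c k = ν := by
    rw [← hν]
    exact Finset.sum_congr rfl fun k _ => mul_comm _ _
  have h1 : ∀ i j, ∑ k, ∑ l, ((if i = k then 1 else 0) - ω * a i * a k) *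
      ((if j = l then 1 else 0) - ω * a j * a l) * K i j * K k l =
      K i j * ((K i j - ω * a j * c i) - ω * a i * (c j - ω * a j * ν)) := by
    intro i j
    have g1 : ∀ k, ∑ l, ((if i = k then 1 else 0) - ω * a i * a k) *
        ((if j = l then 1 else 0) - ω * a j * a l) * K i j * K k l =
        ((if i = k then 1 else 0) - ω * a i * a k) * (K i j * (K k j - ω * a j * c k)) := by
      intro k
      have g2 : ∀ l, ((if i = k then 1 else 0) - ω * a i * a k) *
          ((if j = l then 1 else 0) - ω * a j * a l) * K i j * K k l =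
          ((if i = k then 1 else 0) - ω * a i * a k) * K i j *
            (((if j = l then 1 else 0) - ω * a j * a l) * K k l) := fun l => by ring
      simp only [g2]
      rw [← Finset.mul_sum, c1 a (fun l => K k l) ω j, hc' k]
      ring
    simp only [g1]
    rw [c1 a (fun k => K i j * (K k j - ω * a j * c k)) ω i]
    have g3 : ∑ k, a k * (K i j * (K k j - ω * a j * c k)) =
        K i j * (∑ k, a k * K k j - ω * a j * ∑ k, a k * c k) := by
      rw [Finset.mul_sum, ← Finset.sum_sub_distrib, Finset.mul_sum]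
      exact Finset.sum_congr rfl fun k _ => by ring
    rw [g3, hc'' j, hν']
    ring
  simp only [h1]
  have h2 : ∀ i, ∑ j, K i j * ((K i j - ω * a j * c i) - ω * a i * (c j - ω * a j * ν)) =
      ∑ j, K i j ^ 2 - ω * c i * (∑ j, K i j * a j) - ω * (∑ j, a i * K i j * c j) +
        ω ^ 2 * ν * a i * (∑ j, K i j * a j) := by
    intro i
    simp only [Finset.mul_sum]
    rw [← Finset.sum_sub_distrib, ← Finset.sum_sub_distrib, ← Finset.sum_add_distrib]
    exact Finset.sum_congr rfl fun j _ => by ring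
  simp only [h2, hc, Finset.sum_add_distrib, Finset.sum_sub_distrib]
  have h3 : ∑ i, ω * ∑ j, a i * K i j * c j = ω * ∑ i, c i ^ 2 := by
    rw [← Finset.mul_sum, Finset.sum_comm]
    congr 1
    refine Finset.sum_congr rfl fun j _ => ?_
    rw [← Finset.sum_mul, hc'' j]
    ring
  have h4 : ∑ i, ω * c i * c i = ω * ∑ i, c i ^ 2 := by
    rw [Finset.mul_sum]
    exact Finset.sum_congr rfl fun i _ => by ring
  have h5 : ∑ i, ω ^ 2 * ν * a i * c i = ω ^ 2 * ν ^ 2 := by
    have : ∀ i, ω ^ 2 * ν * a i * c i = ω ^ 2 * ν * (a i * c i) := fun i => by ring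
    simp only [this]
    rw [← Finset.mul_sum, hν']
    ring
  rw [h3, h4, h5]
  ring

/-- the trace-free part -/
lemma ns2 (ha : ∑ i, a i * a i = 1) (hb : ∀ i, ∑ l, b i l * a l = 0)
    (hb' : ∀ l, ∑ i, b i l * a i = 0)
    (hK : ∀ i j, K i j = K j i) (hc : ∀ i, ∑ j, K i j * a j = c i)
    (hν : ∑ i, c i * a i = ν) :
    ∑ i, ∑ j, (K i j - c i * a j - c j * a i + ν * a i * a j - κ * b i j) ^ 2 =
    ∑ i, ∑ j, K i j ^ 2 - 2 * ∑ i, c i ^ 2 + ν ^ 2 - 2 * κ * ∑ i, ∑ j, K i j * b i j +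
      κ ^ 2 * ∑ i, ∑ j, b i j * b i j := by
  have hc'' : ∀ j, ∑ k, a k * K k j = c j := fun j => by
    rw [← hc j]
    exact Finset.sum_congr rfl fun k _ => by rw [hK k j]; ring
  have h1 : ∀ i j, (K i j - c i * a j - c j * a i + ν * a i * a j - κ * b i j) ^ 2 =
      K i j ^ 2 + c i ^ 2 * (a j * a j) + a i * a i * c j ^ 2 + ν ^ 2 * (a i * a i) * (a j * a j) +
      κ ^ 2 * (b i j * b i j) - 2 * c i * (K i j * a j) - 2 * (a i * K i j * c j) +
      2 * ν * a i * (K i j * a j) - 2 * κ * (K i j * b i j) + 2 * (c i * a i) * (c j * a j) -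
      2 * ν * (c i * a i) * (a j * a j) + 2 * κ * c i * (b i j * a j) -
      2 * ν * (a i * a i) * (c j * a j) + 2 * κ * (b i j * a i * c j) -
      2 * κ * ν * a i * (b i j * a j) := fun i j => by ring
  simp only [h1, Finset.sum_add_distrib, Finset.sum_sub_distrib, ← Finset.mul_sum, ha, hb, hc, hν]
  have h2 : ∑ i, ∑ j, a i * K i j * c j = ∑ i, c i ^ 2 := by
    rw [Finset.sum_comm]
    refine Finset.sum_congr rfl fun j _ => ?_
    rw [← Finset.sum_mul, hc'' j]
    ring
  have h3 : ∑ i, ∑ j, b i j * a i * c j = 0 := by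
    rw [Finset.sum_comm]
    refine Finset.sum_eq_zero fun j _ => ?_
    rw [← Finset.sum_mul, hb' j, zero_mul]
  have h4 : ∑ i, 2 * c i * c i = 2 * ∑ i, c i ^ 2 := by
    rw [Finset.mul_sum]
    exact Finset.sum_congr rfl fun i _ => by ring
  have h5 : ∑ i, 2 * ν * a i * c i = 2 * ν ^ 2 := by
    have : ∀ i, 2 * ν * a i * c i = 2 * ν * (c i * a i) := fun i => by ring
    simp only [this]
    rw [← Finset.mul_sum, hν]
    ring
  rw [h2, h3]
  simp only [← Finset.sum_mul, ← Finset.mul_sum, ha, hν, h4, h5]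
  ring

end Vale.Agent.P366.CLam
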