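import Vale.Agent.P366.H353.CL.DivV
import Vale.Agent.P366.H208.CL.Pos

/-! Data foliated by the parallel surfaces of a convex body: the local structure `Lf` at interior
points. -/

open MeasureTheory Metric Filter Topology Set
open scoped ContDiff ENNReal

noncomputable section
namespace Vale.Agent.P366.CLam

open Vale.Agent.P366 (pd E)
open Vale.Agent.P366.H353.N
open Vale.Agent.P366.Kerr (NullCone Psi)
open Vale.Agent.P366.CL (IsLeafExt XL lapL col nn trL kap rat alf sig grd acc den LeafAt Lf Pt pt_of)

variable {n : ℕ} {C : NullCone n} {lam W : E n → ℝ} {D : Stmt.Exterior n} {x y : E n} {s : ℝ}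

lemma nat_le_inf (k : ℕ) : ((k : ℕ) : WithTop ℕ∞) ≤ ((⊤ : ℕ∞) : WithTop ℕ∞) :=
  WithTop.coe_le_coe.2 (le_top : (k : ℕ∞) ≤ ⊤)

/-- the trace of the Christoffel symbols -/
lemma chr_tr (hL : IsLeafExt C lam W D) (hy : 0 < D.F y) (i : Fin n) :
    ∑ m, Stmt.chr D.g m i m y = Stmt.pd i W y / (2 * (1 + W y)) := by
  have P := pt_of hL hy
  have hp := one_W_pos hL hy.le
  have hu : ∀ i j, Stmt.up D.g i j y = (if i = j then 1 else 0) -
      W y / (1 + W y) * pd i lam y * pd j lam y := by
    intro i j
    rw [Stmt.CLt.up_rank (sgsq hL hy.le) hp (hL.met y hy.le), CL.spd_eq P.cl, CL.spd_eq P.cl]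
  have h1 : ∑ m, Stmt.chr D.g m i m y =
      (∑ m, ∑ l, Stmt.up D.g m l y * Stmt.pd i (fun y => D.g y m l) y) / 2 := by
    unfold Stmt.chr
    rw [← Finset.sum_div]
    congr 1
    have e1 : ∀ m l, Stmt.up D.g m l y * (Stmt.pd i (fun y => D.g y m l) y +
        Stmt.pd m (fun y => D.g y i l) y - Stmt.pd l (fun y => D.g y i m) y) =
        Stmt.up D.g m l y * Stmt.pd i (fun y => D.g y m l) y +
        (Stmt.up D.g m l y * Stmt.pd m (fun y => D.g y i l) y -
          Stmt.up D.g m l y * Stmt.pd l (fun y => D.g y i m) y) := fun m l => by ring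
    simp only [e1, Finset.sum_add_distrib, Finset.sum_sub_distrib]
    have e2 : ∑ m, ∑ l, Stmt.up D.g m l y * Stmt.pd l (fun y => D.g y i m) y =
        ∑ m, ∑ l, Stmt.up D.g m l y * Stmt.pd m (fun y => D.g y i l) y := by
      rw [Finset.sum_comm]
      refine Finset.sum_congr rfl fun m _ => Finset.sum_congr rfl fun l _ => ?_
      have : Stmt.up D.g l m y = Stmt.up D.g m l y := by
        rw [hu, hu]
        simp only [eq_comm (a := l) (b := m)]
        ring
      rw [this]
    rw [e2]
    ring
  rw [h1]
  have hb := P.eik'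
  have hb' := P.eik
  have ha : ∑ l, pd l lam y * pd l lam y = 1 := by
    rw [← P.gr]
    exact Finset.sum_congr rfl fun l _ => by ring
  have e3 : ∀ m, ∑ l, Stmt.up D.g m l y * Stmt.pd i (fun y => D.g y m l) y =
      Stmt.pd i (fun y => D.g y m m) y - W y / (1 + W y) * (pd i W y * (pd m lam y * pd m lam y) +
        W y * (hs lam i m y * pd m lam y)) := by
    intro m
    have e4 : ∀ l, Stmt.up D.g m l y * Stmt.pd i (fun y => D.g y m l) y =
        (if m = l then Stmt.pd i (fun y => D.g y m l) y else 0) - W y / (1 + W y) *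
          ((pd i W y * (pd m lam y * pd m lam y) + W y * (hs lam i m y * pd m lam y)) *
            (pd l lam y * pd l lam y) +
          W y * (pd m lam y * pd m lam y) * (hs lam i l y * pd l lam y)) := by
      intro l
      rw [hu, sub_mul]
      congr 1
      · split_ifs <;> ring
      · rw [P.dg]
        ring
    simp only [e4, Finset.sum_sub_distrib, Finset.sum_ite_eq, Finset.mem_univ, if_true,
      ← Finset.mul_sum, Finset.sum_add_distrib, ha, hb]
    ring
  simp only [e3, Finset.sum_sub_distrib, ← Finset.mul_sum, Finset.sum_add_distrib, ha, hb,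
    P.sum_dg' i]
  rw [CL.spd_eq P.cW]
  field_simp
  ring

/-- the local structure of the metric at interior points -/
theorem lf_of (hL : IsLeafExt C lam W D) : Lf D.g lam W {y | 0 < D.F y} where
  M := {
    op := isOpen_lt continuous_const D.dom.1.continuous
    sm := fun a b x _ => ((D.smooth a b).1.contDiffAt).of_le (nat_le_inf _)
    symm := fun x _ a b => (D.symm x a b).1
    det := fun x hx => (D.pos x (le_of_lt hx)).det_pos.ne' }
  sL := fun x hx => (hL.smL x (le_of_lt hx)).of_le (nat_le_inf _)
  sW := fun x hx => (hL.smW x (le_of_lt hx)).of_le (nat_le_inf _)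
  un := fun z hz => by
    rw [← sgsq hL (le_of_lt hz)]
    exact Finset.sum_congr rfl fun i _ => by ring
  pos := fun z hz => one_W_pos hL (le_of_lt hz)
  met := fun z hz => hL.met z (le_of_lt hz)
  vol := fun z hz i => by
    have hz' : 0 < D.F z := hz
    have hp := one_W_pos hL hz'.le
    rw [chr_tr hL hz' i]
    have h1 : T2.HP i W (Stmt.pd i W z) z :=
      T2.HP.of_diff ((hL.smW z hz'.le).differentiableAt (by simp))
    have h2 : T2.HP i (fun y => 1 + W y) (0 + Stmt.pd i W z) z := (T2.HP.const i 1 z).add h1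
    have h3 : HasDerivAt (fun t : ℝ => 1 + W (z + t • EuclideanSpace.single i (1 : ℝ)))
      (0 + Stmt.pd i W z) 0 := h2
    have h4 : T2.HP i (fun y => √(1 + W y)) ((0 + Stmt.pd i W z) /
        (2 * √(1 + W (z + (0 : ℝ) • EuclideanSpace.single i (1 : ℝ))))) z :=
      h3.sqrt (by simpa using hp.ne')
    have hss := Real.mul_self_sqrt hp.le
    convert h4 using 1
    rw [zero_smul, add_zero, zero_add, mul_div_assoc', div_eq_div_iff (by positivity)
      (by positivity)]
    linear_combination (2 * Stmt.pd i W z) * hss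

end Vale.Agent.P366.CLam
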