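import Vale.Agent.P366.H208.CL.BdrX
import Vale.Agent.P366.CL.Flux
import Vale.Agent.P366.H707.CL.Area

/-! Data foliated by the parallel surfaces of a convex body: the inequality. -/

open MeasureTheory Metric Filter Topology Set
open scoped ContDiff ENNReal

noncomputable section
namespace Vale.Agent.P366.CLam

open Vale.Agent.P366 (pd E flux)
open Vale.Agent.P366.H353.N
open Vale.Agent.P366.Kerr (NullCone Psi)
open Vale.Agent.P366.CL (IsLeafExt XL lapL col nn trL kap rat alf sig grd acc den LeafAt)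
open Vale.Agent.P366.KSN (Y dts sg Ms Ws posU' Y_eq U_smul norm_smul_unit dts_pos sum_xx)

variable {n : ℕ} {C : NullCone n} {lam W : E n → ℝ} {D : Stmt.Exterior n} {x y : E n} {s : ℝ}

lemma XL_smooth [Fact (3 ≤ n)] (hL : IsLeafExt C lam W D) (hy : 0 ≤ D.F y) (i : Fin n) :
    ContDiffAt ℝ ∞ (XL lam W D.K i) y := by
  refine CL.XL_cd (hL.smL y hy) (hL.smW y hy) (one_W_pos hL hy).ne' ?_ i
  obtain ⟨x, s, hx, hs, rfl⟩ := (mem_iff hL.toLamS).1 hy
  exact (lapL_pos hL hx hs).ne'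

/-- the flux of `XL` through the boundary and at infinity -/
theorem stokes_XL [Fact (3 ≤ n)] (hL : IsLeafExt C lam W D) (hAF : D.IsAF) {m : ℝ}
    (hm : D.IsEnergy m) (hpos : ∀ y, 0 < D.F y → 0 ≤ ∑ i, pd i (XL lam W D.K i) y) :
    SI (fun x => dts C.H (C.U x) x * ∑ i, XL lam W D.K i (Y C.H x (C.U x)) *
      (x i - C.toDat.b x i)) ≤ ((n : ℝ) - 1) * om n * m := by
  obtain ⟨R, hR⟩ := D.dom.2.2.2
  have hS := hL.toLamS
  have h := KSN.stokes_le C (R0 := R) (Z := XL lam W D.K)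
    (fun y hy => (mem_iff hS).mp (hR y hy).le)
    (fun i x s hx hs => (XL_smooth hL (mem_Y hS hx hs) i).of_le (by exact_mod_cast le_top))
    (fun x s hx hs => hpos _ (F_pos hS hx hs)) (CL.flux_XL hL hAF hm)
  rwa [SI_congr fun x hx => KSL.bflux_zero C (XL lam W D.K) hx] at h

/-- The energy bound with the Minkowski area. -/
theorem main_XL [Fact (3 ≤ n)] (hL : IsLeafExt C lam W D) (hAF : D.IsAF) (hT : D.Trapped) {m : ℝ}
    (hm : D.IsEnergy m) (hpos : ∀ y, 0 < D.F y → 0 ≤ ∑ i, pd i (XL lam W D.K i) y) :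
    1 / 2 * (SI C.toDat.dt / om n) ^ (((n : ℝ) - 2) / ((n : ℝ) - 1)) ≤ m := by
  obtain ⟨T, hTA, hTb, -⟩ := toTen C.toDat
  have h3 := Fact.out (p := 3 ≤ n)
  have hn : (3 : ℝ) ≤ (n : ℝ) := by exact_mod_cast h3
  have hom : 0 < om n := om_pos
  have hS := hL.toLamS
  have hst := stokes_XL hL hAF hm hpos
  have hXc : ContinuousOn (fun x : E n => dts C.H (C.U x) x *
      ∑ i, XL lam W D.K i (Y C.H x (C.U x)) * (x i - C.toDat.b x i)) (sphere (0 : E n) 1) := by
    refine (KSN.dts_cont C (KSN.smU C)).mul (continuousOn_finsetSum _ fun i _ => ?_)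
    have hb : ContinuousOn (fun x : E n => x i - C.toDat.b x i) (sphere (0 : E n) 1) := by
      rw [← hTb]
      exact ((Sm.coord i).sub (T.smb i)).contOn
    refine ContinuousOn.mul ?_ hb
    intro x hx
    have hx1 : ‖x‖ = 1 := by simpa using hx
    exact (ContinuousAt.comp (g := XL lam W D.K i) (f := fun x : E n => Y C.H x (C.U x)) (x := x)
      (XL_smooth hL (mem_Y hS hx1 le_rfl) i).continuousAt
      (KSN.Y_comp C (KSN.smU C) (ne_zero_of_one hx1)).continuousAt).continuousWithinAt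
  have h7 : SI (KSL.qT T) ≤ SI (fun x => 2 * (dts C.H (C.U x) x *
      ∑ i, XL lam W D.K i (Y C.H x (C.U x)) * (x i - C.toDat.b x i))) :=
    SI_mono (KSL.qT_sm T).contOn (continuousOn_const.mul hXc) fun x hx =>
      bdr_XL hL hT hTA hTb hx
  rw [SI_cmul] at h7
  have h10 := Shell.shell_frame C.toDat T hTA hTb (q := KSL.qT T) (fun x _ => rfl)
    (fun _ => (0 : ℝ))
  have e0 : Shell.e0 (fun _ : Fin n => (0 : ℝ)) = 1 := by
    unfold Shell.e0
    simp
  have hc : 0 < 2 * ((n : ℝ) - 1) * om n := by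
    have : 0 < (n : ℝ) - 1 := by linarith
    positivity
  rw [e0, le_div_iff₀ hc] at h10
  simp only [one_mul, zero_mul, Finset.sum_const_zero, add_zero] at h10
  have h11 : 1 / 2 * (SI C.toDat.dt / om n) ^ (((n : ℝ) - 2) / ((n : ℝ) - 1)) *
      (2 * ((n : ℝ) - 1) * om n) ≤ m * (2 * ((n : ℝ) - 1) * om n) := by
    linarith
  exact le_of_mul_le_mul_right h11 hc

end Vale.Agent.P366.CLam
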