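import Vale.Agent.P366.H208.CL.Theta

/-! Data foliated by the parallel surfaces of a convex body: the boundary flux. -/

open MeasureTheory Metric Filter Topology Set
open scoped ContDiff ENNReal

noncomputable section
namespace Vale.Agent.P366.CLam

open Vale.Agent.P366 (pd E)
open Vale.Agent.P366.H353.N
open Vale.Agent.P366.H353.N.X3
open Vale.Agent.P366.Kerr (NullCone Psi)
open Vale.Agent.P366.CL (IsLeafExt XL lapL col nn trL kap rat alf sig grd acc den LeafAt)
open Vale.Agent.P366.KSN (Y dts sg Ms Ws posU' Y_eq U_smul norm_smul_unit dts_pos sum_xx)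
open Vale.Agent.P366.KSN.W (zz_Y LL LL_symm LL_x grad_F hess_F Av)

variable {n : ℕ} {C : NullCone n} {lam W : E n → ℝ} {D : Stmt.Exterior n} {x y : E n} {s : ℝ}

/-- derivatives in the sense of the statement -/
lemma spd2 {g : E n → ℝ} (hg : ContDiffAt ℝ ∞ g y) (i j : Fin n) :
    Stmt.pd i (Stmt.pd j g) y = H353.N.hs g i j y := KSN.X2.stmt_pd2 hg i j

lemma pdU_zero (hL : IsLeafExt C lam W D) (hx : x ≠ 0) (j : Fin n) : pd j C.U x = 0 := by
  obtain ⟨c, hc⟩ := hL.cst
  have h : pd j C.U x = pd j (fun _ => c) x := pd_congr' (fun y hy => hc y hy) hx j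
  rw [h, Vale.Agent.P366.pd_const]

lemma b_zero (hL : IsLeafExt C lam W D) (hx : x ≠ 0) (i : Fin n) : C.toDat.b x i = 0 := by
  have h1 : C.toDat.b x i = ∑ j, (C.toDat.M x)⁻¹ i j * (‖x‖ * pd j C.U x) := rfl
  rw [h1]
  exact Finset.sum_eq_zero fun j _ => by rw [pdU_zero hL hx]; ring

/-- `qT = tr A` -/
lemma qT_eq (hL : IsLeafExt C lam W D) {T : Ten n} (hTb : T.b = C.toDat.b) (hx : ‖x‖ = 1) :
    KSL.qT T x = H353.N.tr (T.A x) := by
  have hx0 := ne_zero_of_one hx
  have h1 : ∀ i, T.b x i = 0 := fun i => by rw [hTb]; exact b_zero hL hx0 i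
  have h2 : ∀ i j, pd i (fun y => T.b y j) x = 0 := by
    intro i j
    have h : pd i (fun y => T.b y j) x = pd i (fun _ => (0 : ℝ)) x :=
      pd_congr' (fun y hy => by rw [hTb]; exact b_zero hL hy j) hx0 i
    rw [h, Vale.Agent.P366.pd_const]
  unfold KSL.qT qf
  simp only [h1, h2]
  simp

/-- the boundary data with the constant height function -/
theorem mkBc [Fact (3 ≤ n)] (hL : IsLeafExt C lam W D) {T : Ten n} (hA : T.A = C.toDat.A)
    (hb : T.b = C.toDat.b) : ∃ c, BdN C.H C.U T (fun x => dts C.H (C.U x) x) (fun _ => c) := by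
  obtain ⟨c, hc⟩ := hL.cst
  refine ⟨-c, ?_⟩
  exact
    { smH := KSN.smH C
      smU := KSN.smU C
      homH := KSN.homH C
      homU := KSN.homU C
      AW := fun x hx i j => by
        rw [hA]
        have h := AW C.toDat hx i j
        rw [dt_one C.toDat hx] at h
        exact h
      AU := fun x hx i => by
        rw [hA, hb]
        have h := AU C.toDat hx (by rw [dt_one C.toDat hx]; exact (dts_pos C hx le_rfl).ne') i
        rw [dt_one C.toDat hx] at h
        exact h
      dpos := fun x hx => dts_pos C hx le_rfl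
      sm := fun x hx => contDiffAt_const
      bd := fun x hx => by rw [hc x (ne_zero_of_one hx)]
      tp := fun x hx => by simp [Vale.Agent.P366.pd_const] }

/-- The null expansion of the boundary. -/
theorem theta_CL [Fact (3 ≤ n)] (hL : IsLeafExt C lam W D) (hx : ‖x‖ = 1) :
    Stmt.thetaPlus D.g D.K D.F (Y C.H x (C.U x)) =
      lapL lam (Y C.H x (C.U x)) / √(1 + W (Y C.H x (C.U x))) +
        trL lam D.K (Y C.H x (C.U x)) := by
  obtain ⟨T, hTA, hTb, -⟩ := toTen C.toDat
  obtain ⟨c, B⟩ := mkBc hL hTA hTb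
  have hS := hL.toLamS
  have hx0 := ne_zero_of_one hx
  have hzY := zz_Y C hx
  have hd := dts_pos C hx (le_refl (C.U x))
  have hFz : ∀ z, z ≠ 0 → D.F (zz C.H C.U z) = 0 := by
    intro z hz
    have hu := unit_of hz
    rw [B.zz_unit hz, zz_Y C hu]
    exact KSL.bd_Y (β := fun _ => 0) hL.bdF hu
  have hFc : ∀ z, z ≠ 0 → ContDiffAt ℝ ∞ D.F (zz C.H C.U z) := fun z _ => D.dom.1.contDiffAt
  have hgr := fun i => grad_F B hFz hFc hx i
  have hhs := fun {X : Fin n → ℝ} => hess_F B hFz hFc hx (X := X)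
  have hFv : ∀ i, X3.Fv C.H C.U (fun _ : E n => c) i x = 0 := fun i => by
    unfold X3.Fv
    rw [Vale.Agent.P366.pd_const]
  have htt : tt C.H C.U (fun _ : E n => c) x = 1 := by
    unfold tt
    simp only [hFv, mul_zero, Finset.sum_const_zero, add_zero]
  have hAv : ∀ i, Av C.H C.U (fun _ : E n => c) x i = x i := fun i => by
    unfold Av
    rw [hFv, zero_add]
  have hhs0 : ∀ (y : E n) (i j), H353.N.hs (fun _ : E n => c) i j y = 0 := by
    intro y i j
    have h : pd j (fun _ : E n => c) = fun _ => 0 := funext fun y => Vale.Agent.P366.pd_const _ _ _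
    unfold H353.N.hs
    rw [h, Vale.Agent.P366.pd_const]
  simp only [htt, hAv, hhs0, zero_mul, Finset.sum_const_zero, zero_add, one_mul, mul_one,
    hzY] at hgr hhs
  have hm : 0 ≤ D.F (Y C.H x (C.U x)) := mem_Y hS hx le_rfl
  have hFpos : 0 < ∑ j, x j * pd j D.F (Y C.H x (C.U x)) := by
    refine KSL.bdr_dF_pos (f := fun _ => c) hS.dom hS.bdF ?_ (differentiableAt_const c) ?_ hx
    · intro z hz hzU
      have h1 := B.bd' hz
      obtain ⟨c', hc'⟩ := hL.cst
      have h2 : c = - C.U z := by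
        have h3 := B.bd _ (unit_of hz)
        rw [hc' _ (ne_zero_of_one (unit_of hz))] at h3
        rw [hc' z hz]
        exact h3
      exact h2
    · simp [Vale.Agent.P366.pd_const]
  obtain ⟨a, ha⟩ : ∃ a, a = ∑ j, x j * pd j D.F (Y C.H x (C.U x)) := ⟨_, rfl⟩
  rw [← ha] at hFpos
  simp only [← ha] at hgr hhs
  have hxx := sum_xx hx
  have hx2 : ∑ i, x i ^ 2 = 1 := by
    rw [← hxx]; exact Finset.sum_congr rfl fun i _ => by ring
  have hFp : ∀ i, Stmt.pd i D.F (Y C.H x (C.U x)) = a * x i := fun i => by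
    rw [KSN.X2.stmt_pd' (D.dom.1.contDiffAt) i]
    exact hgr i
  have hFpp : ∀ i j, Stmt.pd i (Stmt.pd j D.F) (Y C.H x (C.U x)) =
      H353.N.hs D.F i j (Y C.H x (C.U x)) := fun i j => KSN.X2.stmt_pd2 (D.dom.1.contDiffAt) i j
  have hsml := hS.smL _ hm
  have hLp : ∀ i j, Stmt.pd i (Stmt.pd j lam) (Y C.H x (C.U x)) =
      H353.N.hs lam i j (Y C.H x (C.U x)) := fun i j => KSN.X2.stmt_pd2 hsml i j
  have hLx := hs_lam_mul_x hS hx (le_refl (C.U x))
  have hlap : (∑ i, H353.N.hs lam i i (Y C.H x (C.U x))) * dts C.H (C.U x) x =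
      H353.N.tr (T.A x) := by
    have h1 := lap_lam_Y hS hx (le_refl (C.U x))
    rw [hTA, X3.tr_A C.toDat hx]
    exact h1
  -- the trace of the Hessian of `F`
  obtain ⟨L, hLL⟩ : ∃ L, L = LL T (fun x => dts C.H (C.U x) x) x := ⟨_, rfl⟩
  have hLLs : ∀ i j, L i j = L j i := fun i j => by rw [hLL]; exact LL_symm i j
  have hLLx : ∀ i, ∑ j, L i j * x j = 0 := fun i => by rw [hLL]; exact LL_x hx i
  simp only [← hLL] at hhs
  have htrL : ∑ i, L i i = ∑ i, H353.N.hs lam i i (Y C.H x (C.U x)) := by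
    have h1 : (∑ i, L i i) * dts C.H (C.U x) x = H353.N.tr (T.A x) := by
      rw [hLL]
      unfold LL H353.N.tr
      rw [← Finset.sum_div, div_mul_cancel₀ _ hd.ne']
    rw [← hlap] at h1
    exact mul_right_cancel₀ hd.ne' h1
  obtain ⟨b, hb⟩ := H375.sym_plane
    (M := fun i j => Stmt.pd i (Stmt.pd j D.F) (Y C.H x (C.U x)) - a * L i j)
    (fun i j => by
      rw [H375.pd_symm (D.dom.1.contDiffAt) i j, hLLs i j])
    (F := fun i => x i) (Z := fun i => x i) hxx
    (by
      intro X hX
      have h := hhs hX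
      have e : ∑ i, ∑ j, (Stmt.pd i (Stmt.pd j D.F) (Y C.H x (C.U x)) - a * L i j) *
          X i * X j = (∑ i, ∑ j, H353.N.hs D.F i j (Y C.H x (C.U x)) * X i * X j) -
            a * ∑ i, ∑ j, L i j * X i * X j := by
        simp only [hFpp]
        rw [Finset.mul_sum, ← Finset.sum_sub_distrib]
        refine Finset.sum_congr rfl fun i _ => ?_
        rw [Finset.mul_sum, ← Finset.sum_sub_distrib]
        exact Finset.sum_congr rfl fun j _ => by ring
      rw [e, h]
      ring)
  have hFF : ∑ i, Stmt.pd i (Stmt.pd i D.F) (Y C.H x (C.U x)) -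
      ∑ i, ∑ j, x i * x j * Stmt.pd i (Stmt.pd j D.F) (Y C.H x (C.U x)) =
      a * ∑ i, H353.N.hs lam i i (Y C.H x (C.U x)) := by
    have e0 : ∀ i j, Stmt.pd i (Stmt.pd j D.F) (Y C.H x (C.U x)) =
        a * L i j + (b i * x j + x i * b j) := fun i j => by
      have := hb i j
      linarith
    simp only [e0]
    have e1 : ∑ i, (a * L i i + (b i * x i + x i * b i)) =
        a * ∑ i, L i i + 2 * ∑ i, b i * x i := by
      rw [Finset.mul_sum, Finset.mul_sum, ← Finset.sum_add_distrib]
      exact Finset.sum_congr rfl fun i _ => by ring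
    rw [e1]
    have e2 : ∀ i, ∑ j, x i * x j * (a * L i j + (b i * x j + x i * b j)) =
        b i * x i + x i * x i * ∑ j, b j * x j := by
      intro i
      have e3 : ∀ j, x i * x j * (a * L i j + (b i * x j + x i * b j)) =
          a * x i * (L i j * x j) + b i * x i * (x j * x j) + x i * x i * (b j * x j) :=
        fun j => by ring
      simp only [e3, Finset.sum_add_distrib, ← Finset.mul_sum, hLLx, hxx]
      ring
    simp only [e2, Finset.sum_add_distrib, ← Finset.sum_mul, hxx]
    rw [htrL]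
    ring
  -- the jet of the metric
  have hsmW := hL.smW _ hm
  have hp : ∀ i, Stmt.pd i lam (Y C.H x (C.U x)) = x i := fun i => spd_lam_Y hS hx le_rfl i
  have hg0 : ∀ i j, D.g (Y C.H x (C.U x)) i j =
      (if i = j then 1 else 0) + W (Y C.H x (C.U x)) * x i * x j := fun i j => by
    rw [hL.met _ hm, hp, hp]
  have hpg : ∀ k i j, Stmt.pd k (fun z => D.g z i j) (Y C.H x (C.U x)) =
      Stmt.pd k W (Y C.H x (C.U x)) * x i * x j + W (Y C.H x (C.U x)) *
        (H353.N.hs lam k i (Y C.H x (C.U x)) * x j +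
          x i * H353.N.hs lam k j (Y C.H x (C.U x))) := by
    intro k i j
    have hdl : ∀ i, DifferentiableAt ℝ (pd i lam) (Y C.H x (C.U x)) := fun i =>
      (KSN.pd_contDiffAt hsml i).differentiableAt (by simp)
    have hdW : DifferentiableAt ℝ W (Y C.H x (C.U x)) := hsmW.differentiableAt (by simp)
    have hev : ∀ i, (fun z => Stmt.pd i lam z) =ᶠ[𝓝 (Y C.H x (C.U x))] pd i lam := by
      intro i
      have h1 : ContDiffAt ℝ 1 lam (Y C.H x (C.U x)) := hsml.of_le (by exact_mod_cast le_top)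
      filter_upwards [h1.eventually (by simp)] with z hz
      exact Vale.Agent.P366.Bridge.pd_eq (hz.differentiableAt (by simp)) i
    have hv : (fun z => (if i = j then (1 : ℝ) else 0) + W z * Stmt.pd i lam z *
        Stmt.pd j lam z) =ᶠ[𝓝 (Y C.H x (C.U x))]
        fun z => (if i = j then (1 : ℝ) else 0) + W z * pd i lam z * pd j lam z := by
      filter_upwards [hev i, hev j] with z h1 h2
      rw [h1, h2]
    have hdv : DifferentiableAt ℝ (fun z => (if i = j then (1 : ℝ) else 0) +
        W z * pd i lam z * pd j lam z) (Y C.H x (C.U x)) :=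
      (differentiableAt_const _).add ((hdW.mul (hdl i)).mul (hdl j))
    have h1 : Stmt.pd k (fun z => D.g z i j) (Y C.H x (C.U x)) =
        Stmt.pd k (fun z => (if i = j then (1 : ℝ) else 0) + W z * Stmt.pd i lam z *
          Stmt.pd j lam z) (Y C.H x (C.U x)) := by
      refine H375.pd_eq_of_eqOn D.dom.1 D.dom.2.1 (fun z hz => hL.met z hz i j) hm
        (((D.smooth i j).1.contDiffAt).differentiableAt (by simp))
        (hdv.congr_of_eventuallyEq hv) k
    have h2 : Stmt.pd k (fun z => (if i = j then (1 : ℝ) else 0) + W z * Stmt.pd i lam z *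
        Stmt.pd j lam z) (Y C.H x (C.U x)) = pd k (fun z => (if i = j then (1 : ℝ) else 0) +
          W z * pd i lam z * pd j lam z) (Y C.H x (C.U x)) := by
      rw [Vale.Agent.P366.Bridge.pd_eq (hdv.congr_of_eventuallyEq hv)]
      exact Vale.Agent.P366.pd_congr hv k
    have h3 : pd k (fun z => (if i = j then (1 : ℝ) else 0) +
          W z * pd i lam z * pd j lam z) (Y C.H x (C.U x)) =
        pd k W (Y C.H x (C.U x)) * pd i lam (Y C.H x (C.U x)) * pd j lam (Y C.H x (C.U x)) +
        W (Y C.H x (C.U x)) * (H353.N.hs lam k i (Y C.H x (C.U x)) *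
          pd j lam (Y C.H x (C.U x)) + pd i lam (Y C.H x (C.U x)) *
          H353.N.hs lam k j (Y C.H x (C.U x))) := by
      have hWl : DifferentiableAt ℝ (fun z => W z * pd i lam z) (Y C.H x (C.U x)) :=
        hdW.mul (hdl i)
      have hWll : DifferentiableAt ℝ (fun z => W z * pd i lam z * pd j lam z)
        (Y C.H x (C.U x)) := hWl.mul (hdl j)
      rw [Vale.Agent.P366.pd_add (differentiableAt_const _) hWll,
        Vale.Agent.P366.pd_const, Vale.Agent.P366.pd_mul hWl (hdl j),
        Vale.Agent.P366.pd_mul hdW (hdl i)]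
      unfold H353.N.hs
      ring
    rw [h1, h2, h3, pd_lam_Y hS hx le_rfl, pd_lam_Y hS hx le_rfl,
      KSN.X2.stmt_pd' hsmW k]
  have hw : 0 < 1 + W (Y C.H x (C.U x)) := by
    have hP := D.pos _ hm
    have h0 : (fun i => x i : Fin n → ℝ) ≠ 0 := by
      intro h
      apply hx0
      ext i
      exact congrFun h i
    have h1 := hP.dotProduct_mulVec_pos h0
    simp only [star_trivial] at h1
    have e : (fun i => x i : Fin n → ℝ) ⬝ᵥ (Stmt.mat D.g (Y C.H x (C.U x))).mulVec
        (fun i => x i) = 1 + W (Y C.H x (C.U x)) := by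
      unfold dotProduct Matrix.mulVec dotProduct Stmt.mat
      simp only [hg0]
      have e1 : ∀ i, x i * ∑ j, ((if i = j then (1 : ℝ) else 0) +
          W (Y C.H x (C.U x)) * x i * x j) * x j =
          x i * x i + W (Y C.H x (C.U x)) * (x i * x i) := by
        intro i
        have e2 : ∀ j, ((if i = j then (1 : ℝ) else 0) +
          W (Y C.H x (C.U x)) * x i * x j) * x j = (if i = j then x j else 0) +
            W (Y C.H x (C.U x)) * x i * (x j * x j) := fun j => by split_ifs <;> ring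
        simp only [e2, Finset.sum_add_distrib, Finset.sum_ite_eq, Finset.mem_univ, if_true,
          ← Finset.mul_sum, hxx]
        ring
      simp only [e1, Finset.sum_add_distrib, ← Finset.mul_sum, hxx, mul_one]
    rw [e] at h1
    exact h1
  rw [Stmt.CLt.theta_pt (ν := fun i => x i) (L := fun i j => H353.N.hs lam i j (Y C.H x (C.U x)))
    hx2 hw hFpos hg0 hFp (fun i j => KSN.hs_symm_at hsml i j) hLx hpg hFF]
  unfold lapL trL nn col
  simp only [hLp, hp]
  congr 2
  refine Finset.sum_congr rfl fun i _ => ?_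
  rw [Finset.sum_mul]
  exact Finset.sum_congr rfl fun j _ => by ring

end Vale.Agent.P366.CLam
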