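import Vale.Agent.P366.H208.CL.Bdr

/-! Data foliated by the parallel surfaces of a convex body: the boundary inequality. -/

open MeasureTheory Metric Filter Topology Set
open scoped ContDiff ENNReal

noncomputable section
namespace Vale.Agent.P366.CLam

open Vale.Agent.P366 (pd E)
open Vale.Agent.P366.H353.N
open Vale.Agent.P366.Kerr (NullCone Psi)
open Vale.Agent.P366.CL (IsLeafExt XL lapL col nn trL kap rat alf sig grd acc den LeafAt)
open Vale.Agent.P366.KSN (Y dts sg Ms Ws posU' Y_eq U_smul norm_smul_unit dts_pos sum_xx)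

variable {n : ℕ} {C : NullCone n} {lam W : E n → ℝ} {D : Stmt.Exterior n} {x y : E n} {s : ℝ}

/-- the Euclidean mean curvature of the leaf -/
lemma lapL_Y (hL : IsLeafExt C lam W D) (hx : ‖x‖ = 1) (hs : C.U x ≤ s) :
    lapL lam (Y C.H x s) = H353.N.lap lam (Y C.H x s) := by
  have hm := mem_Y hL.toLamS hx hs
  unfold lapL H353.N.lap
  exact Finset.sum_congr rfl fun i _ => KSN.X2.stmt_pd2 (hL.smL _ hm) i i

lemma lapL_dts (hL : IsLeafExt C lam W D) (hx : ‖x‖ = 1) (hs : C.U x ≤ s) :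
    lapL lam (Y C.H x s) * dts C.H s x = sg C.H s x := by
  rw [lapL_Y hL hx hs]
  exact lap_lam_Y hL.toLamS hx hs

lemma lapL_pos [hn : Fact (3 ≤ n)] (hL : IsLeafExt C lam W D) (hx : ‖x‖ = 1) (hs : C.U x ≤ s) :
    0 < lapL lam (Y C.H x s) := by
  rw [lapL_Y hL hx hs]
  exact lap_lam_pos (by have := hn.out; omega) hL.toLamS hx hs

/-- the metric coefficient is larger than `-1` -/
lemma one_W_pos (hL : IsLeafExt C lam W D) (hy : 0 ≤ D.F y) : 0 < 1 + W y := by
  obtain ⟨x, s, hx, hs, rfl⟩ := (mem_iff hL.toLamS).1 hy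
  have hx0 := ne_zero_of_one hx
  have hxx := sum_xx hx
  have hP := D.pos _ hy
  have hp : ∀ i, Stmt.pd i lam (Y C.H x s) = x i := fun i => spd_lam_Y hL.toLamS hx hs i
  have hg0 : ∀ i j, D.g (Y C.H x s) i j =
      (if i = j then 1 else 0) + W (Y C.H x s) * x i * x j := fun i j => by
    rw [hL.met _ hy, hp, hp]
  have h0 : (fun i => x i : Fin n → ℝ) ≠ 0 := by
    intro h
    apply hx0
    ext i
    exact congrFun h i
  have h1 := hP.dotProduct_mulVec_pos h0
  simp only [star_trivial] at h1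
  have e : (fun i => x i : Fin n → ℝ) ⬝ᵥ (Stmt.mat D.g (Y C.H x s)).mulVec
      (fun i => x i) = 1 + W (Y C.H x s) := by
    unfold dotProduct Matrix.mulVec dotProduct Stmt.mat
    simp only [hg0]
    have e1 : ∀ i, x i * ∑ j, ((if i = j then (1 : ℝ) else 0) +
        W (Y C.H x s) * x i * x j) * x j =
        x i * x i + W (Y C.H x s) * (x i * x i) := by
      intro i
      have e2 : ∀ j, ((if i = j then (1 : ℝ) else 0) +
        W (Y C.H x s) * x i * x j) * x j = (if i = j then x j else 0) +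
          W (Y C.H x s) * x i * (x j * x j) := fun j => by split_ifs <;> ring
      simp only [e2, Finset.sum_add_distrib, Finset.sum_ite_eq, Finset.mem_univ, if_true,
        ← Finset.mul_sum, hxx]
      ring
    simp only [e1, Finset.sum_add_distrib, ← Finset.mul_sum, hxx, mul_one]
  rw [e] at h1
  exact h1

/-- the flux of `XL` through the leaf -/
theorem XL_nor (hL : IsLeafExt C lam W D) (hx : ‖x‖ = 1) (hs : C.U x ≤ s) :
    ∑ i, XL lam W D.K i (Y C.H x s) * x i =
      (W (Y C.H x s) / (1 + W (Y C.H x s)) + kap lam D.K (Y C.H x s) ^ 2) / 2 *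
        lapL lam (Y C.H x s) := by
  have hp : ∀ i, Stmt.pd i lam (Y C.H x s) = x i := fun i => spd_lam_Y hL.toLamS hx hs i
  have hxx := sum_xx hx
  obtain ⟨r, hr⟩ : ∃ r, r = ∑ j, Stmt.pd j W (Y C.H x s) * x j := ⟨_, rfl⟩
  obtain ⟨w2, hw2⟩ : ∃ w2, w2 = 2 * (1 + W (Y C.H x s)) := ⟨_, rfl⟩
  have hac : ∑ i, acc lam W i (Y C.H x s) * x i = 0 := by
    unfold acc grd
    simp only [hp, ← hr, ← hw2]
    have e : ∀ i, (Stmt.pd i W (Y C.H x s) - r * x i) / w2 * x i =
        w2⁻¹ * (Stmt.pd i W (Y C.H x s) * x i) - w2⁻¹ * r * (x i * x i) := fun i => by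
      rw [div_eq_mul_inv]; ring
    simp only [e, Finset.sum_sub_distrib, ← Finset.mul_sum, hxx, ← hr]
    ring
  have hcol : ∑ i, (col lam D.K i (Y C.H x s) - nn lam D.K (Y C.H x s) * x i) * x i = 0 := by
    have e : ∀ i, (col lam D.K i (Y C.H x s) - nn lam D.K (Y C.H x s) * x i) * x i =
        col lam D.K i (Y C.H x s) * x i - nn lam D.K (Y C.H x s) * (x i * x i) := fun i => by ring
    simp only [e, Finset.sum_sub_distrib, ← Finset.mul_sum, hxx]
    unfold nn
    simp only [hp]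
    ring
  unfold XL
  simp only [hp]
  have e : ∀ i, ((W (Y C.H x s) / (1 + W (Y C.H x s)) + kap lam D.K (Y C.H x s) ^ 2) / 2 *
      lapL lam (Y C.H x s) * x i - acc lam W i (Y C.H x s) - kap lam D.K (Y C.H x s) *
        (col lam D.K i (Y C.H x s) - nn lam D.K (Y C.H x s) * x i)) * x i =
      (W (Y C.H x s) / (1 + W (Y C.H x s)) + kap lam D.K (Y C.H x s) ^ 2) / 2 *
        lapL lam (Y C.H x s) * (x i * x i) - acc lam W i (Y C.H x s) * x i -
        kap lam D.K (Y C.H x s) * ((col lam D.K i (Y C.H x s) -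
          nn lam D.K (Y C.H x s) * x i) * x i) := fun i => by ring
  simp only [e, Finset.sum_sub_distrib, ← Finset.mul_sum, hxx, hac, hcol]
  ring

/-- on the boundary `τ / H ≤ -1` -/
theorem kap_bdr [Fact (3 ≤ n)] (hL : IsLeafExt C lam W D) (hT : D.Trapped) (hx : ‖x‖ = 1) :
    kap lam D.K (Y C.H x (C.U x)) * √(1 + W (Y C.H x (C.U x))) ≤ -1 := by
  have hm : 0 ≤ D.F (Y C.H x (C.U x)) := mem_Y hL.toLamS hx le_rfl
  have hF0 : D.F (Y C.H x (C.U x)) = 0 := KSL.bd_Y (β := fun _ => 0) hL.bdF hx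
  have h1 := hT _ hF0
  rw [theta_CL hL hx] at h1
  have hl := lapL_pos hL hx (le_refl (C.U x))
  have hw := one_W_pos hL hm
  have hs := Real.sqrt_pos.2 hw
  unfold kap
  generalize √(1 + W (Y C.H x (C.U x))) = w at *
  generalize lapL lam (Y C.H x (C.U x)) = l at *
  generalize trL lam D.K (Y C.H x (C.U x)) = t at *
  have h2 : t ≤ -(l / w) := by linarith
  rw [div_mul_eq_mul_div, div_le_iff₀ hl]
  have h3 := mul_le_mul_of_nonneg_right h2 hs.le
  have h4 : -(l / w) * w = -1 * l := by field_simp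
  linarith

theorem one_le_bdr [Fact (3 ≤ n)] (hL : IsLeafExt C lam W D) (hT : D.Trapped) (hx : ‖x‖ = 1) :
    1 ≤ W (Y C.H x (C.U x)) / (1 + W (Y C.H x (C.U x))) +
      kap lam D.K (Y C.H x (C.U x)) ^ 2 := by
  have hm : 0 ≤ D.F (Y C.H x (C.U x)) := mem_Y hL.toLamS hx le_rfl
  have hw := one_W_pos hL hm
  have h1 := kap_bdr hL hT hx
  have hss := Real.sq_sqrt hw.le
  have hs := Real.sqrt_pos.2 hw
  generalize W (Y C.H x (C.U x)) = w at *
  generalize kap lam D.K (Y C.H x (C.U x)) = k at *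
  have h2 : 1 ≤ k ^ 2 * (1 + w) := by
    rw [← hss]
    nlinarith
  have h3 : w / (1 + w) = 1 - 1 / (1 + w) := by field_simp; ring
  have h4 : 1 / (1 + w) ≤ k ^ 2 := by
    rw [div_le_iff₀ hw]; exact h2
  linarith

/-- The exact boundary flux. -/
theorem bdr_eq [Fact (3 ≤ n)] (hL : IsLeafExt C lam W D) {T : Ten n} (hTA : T.A = C.toDat.A)
    (hTb : T.b = C.toDat.b) (hx : ‖x‖ = 1) :
    2 * (dts C.H (C.U x) x * ∑ i, XL lam W D.K i (Y C.H x (C.U x)) *
      (x i - C.toDat.b x i)) = (W (Y C.H x (C.U x)) / (1 + W (Y C.H x (C.U x))) +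
        kap lam D.K (Y C.H x (C.U x)) ^ 2) * KSL.qT T x := by
  have hx0 := ne_zero_of_one hx
  simp only [b_zero hL hx0, sub_zero]
  rw [XL_nor hL hx le_rfl, qT_eq hL hTb hx, hTA, X3.tr_A C.toDat hx,
    show sg C.toDat.H (C.toDat.U x) x = sg C.H (C.U x) x from rfl,
    ← lapL_dts hL hx (le_refl (C.U x))]
  ring

/-- The boundary inequality. -/
theorem bdr_XL [Fact (3 ≤ n)] (hL : IsLeafExt C lam W D) (hT : D.Trapped) {T : Ten n}
    (hTA : T.A = C.toDat.A) (hTb : T.b = C.toDat.b) (hx : ‖x‖ = 1) :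
    KSL.qT T x ≤ 2 * (dts C.H (C.U x) x * ∑ i, XL lam W D.K i (Y C.H x (C.U x)) *
      (x i - C.toDat.b x i)) := by
  rw [bdr_eq hL hTA hTb hx]
  have h1 := one_le_bdr hL hT hx
  have h2 : 0 < KSL.qT T x := by
    rw [qT_eq hL hTb hx, hTA, X3.tr_A C.toDat hx]
    exact KSN.sg_pos C hx le_rfl
  nlinarith

end Vale.Agent.P366.CLam
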