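import Vale.Agent.P366.H208.CL.LfOf

/-! Data foliated by the parallel surfaces of a convex body: the radial component of `K` in the case
of equality. -/

open MeasureTheory Metric Filter Topology Set
open scoped ContDiff ENNReal

noncomputable section
namespace Vale.Agent.P366.CLam

open Vale.Agent.P366 (E)
open Vale.Agent.P366.H353.N
open Vale.Agent.P366.T2 (HP)
open Vale.Agent.P366.H896 (CR)
open Vale.Agent.P366.Kerr (NullCone Psi)
open Vale.Agent.P366.CL (IsLeafExt XL lapL col nn trL kap rat alf sig grd acc den LeafAt Lf Pt pt_of)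

variable {n : ℕ} {C : NullCone n} {lam W : E n → ℝ} {D : Stmt.Exterior n} {x y : E n} {s : ℝ}

/-- If `K = ν dλ ⊗ dλ + κ D²λ` near the interior point `y` and the momentum density vanishes at `y`
in the direction `∇λ`, then `ν = (1 + W) ∂_λ κ` at `y`. -/
theorem nn_eq_kap [Fact (3 ≤ n)] (hL : IsLeafExt C lam W D) (hy : 0 < D.F y)
    (hα : ∀ᶠ z in 𝓝 y, ∀ i, alf lam W D.K i z = 0)
    (hσ : ∀ i j, sig lam D.K i j y = 0)
    (hJ : ∑ i, Stmt.mom D.g D.K i y * Stmt.pd i lam y = 0) :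
    nn lam D.K y = (1 + W y) * ∑ i, Stmt.pd i (kap lam D.K) y * Stmt.pd i lam y := by
  have hLf := lf_of hL
  have hyO : y ∈ {y | 0 < D.F y} := hy
  have hp := one_W_pos hL hy.le
  have hs := Real.sqrt_pos.2 hp
  have hss := Real.mul_self_sqrt hp.le
  have hl := lapL_pos' hL hy.le
  have cl := hL.smL y hy.le
  have cW := hL.smW y hy.le
  have hO : ∀ᶠ z in 𝓝 y, 0 < D.F z := hLf.op.mem_nhds hyO
  have hcol : ∀ᶠ z in 𝓝 y, ∀ i, col lam D.K i z = nn lam D.K z * Stmt.pd i lam z := by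
    filter_upwards [hα, hO] with z hz hz0 i
    have h1 := hz i
    unfold alf at h1
    have h2 := (div_eq_zero_iff.1 h1).resolve_right
      (Real.sqrt_pos.2 (one_W_pos hL (le_of_lt hz0))).ne'
    linarith
  -- the weight `ψ = √(1 + W)`
  have hψ : CR 1 {y | 0 < D.F y} fun y => √(1 + W y) := fun z hz => by
    have h1 : ContDiffAt ℝ ((1 : ℕ) : WithTop ℕ∞) W z :=
      (hL.smW z (le_of_lt hz)).of_le (nat_le_inf 1)
    exact (contDiffAt_const.add h1).sqrt (one_W_pos hL (le_of_lt hz)).ne'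
  have hpψ : ∀ i, Stmt.pd i (fun y => √(1 + W y)) y = Stmt.pd i W y / (2 * √(1 + W y)) := by
    intro i
    rw [(hLf.vol y hyO i).pd, chr_tr hL hy i, mul_div_assoc', div_eq_div_iff (by positivity)
      (by positivity)]
    linear_combination (2 * Stmt.pd i W y) * hss
  have h1 := hLf.div_V (K := D.K) (ψ := fun y => √(1 + W y))
    (fun i j x _ => ((D.smooth i j).2.contDiffAt).of_le (nat_le_inf 1))
    (fun x _ i j => (D.symm x i j).2) hψ hyO
  -- the left side
  have cn : ContDiffAt ℝ ∞ (nn lam D.K) y := CL.nn_cd cl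
  have ck : ContDiffAt ℝ ∞ (kap lam D.K) y := CL.kap_cd cl hl.ne'
  have cL : ContDiffAt ℝ ∞ (lapL lam) y := CL.lapL_cd cl
  have hev : ∀ i, (fun y => √(1 + W y) / √(1 + W y) * (col lam D.K i y - nn lam D.K y *
      Stmt.pd i lam y - trL lam D.K y * Stmt.pd i lam y)) =ᶠ[𝓝 y]
      fun y => -(kap lam D.K y * lapL lam y * Stmt.pd i lam y) := by
    intro i
    filter_upwards [hcol, hO] with z hz hz0
    have hz0' : 0 ≤ D.F z := le_of_lt hz0
    rw [hz i, div_self (Real.sqrt_pos.2 (one_W_pos hL hz0')).ne']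
    have h2 := (lapL_pos' hL hz0').ne'
    unfold kap
    field_simp
    ring
  have hLi : ∀ i, Stmt.pd i (fun y => √(1 + W y) / √(1 + W y) * (col lam D.K i y -
      nn lam D.K y * Stmt.pd i lam y - trL lam D.K y * Stmt.pd i lam y)) y =
      -(lapL lam y * (Stmt.pd i (kap lam D.K) y * Stmt.pd i lam y) +
        kap lam D.K y * (Stmt.pd i lam y * Stmt.pd i (lapL lam) y) +
        kap lam D.K y * lapL lam y * Stmt.pd i (Stmt.pd i lam) y) := by
    intro i
    have a1 : HP i (kap lam D.K) (Stmt.pd i (kap lam D.K) y) y :=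
      HP.of_diff (ck.differentiableAt (by simp))
    have a2 : HP i (lapL lam) (Stmt.pd i (lapL lam) y) y :=
      HP.of_diff (cL.differentiableAt (by simp))
    have a3 : HP i (Stmt.pd i lam) (Stmt.pd i (Stmt.pd i lam) y) y :=
      HP.of_diff ((CL.spd_cd cl i).differentiableAt (by simp))
    have a4 := (((a1.mul a2).mul a3).neg).congr (hev i)
    rw [a4.pd]
    ring
  simp only [hLi, Finset.sum_neg_distrib, Finset.sum_add_distrib, ← Finset.mul_sum,
    hLf.lap' hyO] at h1
  -- the right side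
  have hc := hcol.self_of_nhds
  have hu : ∑ i, Stmt.pd i lam y * Stmt.pd i lam y = 1 := hLf.un y hyO
  have e1 : ∀ φ : E n → ℝ, ∑ i, Stmt.pd i φ y * col lam D.K i y =
      (∑ i, Stmt.pd i φ y * Stmt.pd i lam y) * nn lam D.K y := by
    intro φ
    rw [Finset.sum_mul]
    exact Finset.sum_congr rfl fun i _ => by rw [hc i]; ring
  have e2 : ∑ i, ∑ l, D.K y i l * Stmt.pd i (Stmt.pd l lam) y =
      kap lam D.K y * ∑ i, ∑ j, Stmt.pd i (Stmt.pd j lam) y * Stmt.pd i (Stmt.pd j lam) y := by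
    have g1 : ∀ i l, D.K y i l = nn lam D.K y * Stmt.pd i lam y * Stmt.pd l lam y +
        kap lam D.K y * Stmt.pd i (Stmt.pd l lam) y := by
      intro i l
      have := hσ i l
      unfold sig at this
      rw [hc i, hc l] at this
      linarith
    have g2 : ∀ i, ∑ l, D.K y i l * Stmt.pd i (Stmt.pd l lam) y =
        nn lam D.K y * Stmt.pd i lam y * (∑ l, Stmt.pd i (Stmt.pd l lam) y * Stmt.pd l lam y) +
        kap lam D.K y * ∑ l, Stmt.pd i (Stmt.pd l lam) y * Stmt.pd i (Stmt.pd l lam) y := by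
      intro i
      rw [Finset.mul_sum, Finset.mul_sum, ← Finset.sum_add_distrib]
      exact Finset.sum_congr rfl fun l _ => by rw [g1]; ring
    simp only [g2, hLf.bz hyO, mul_zero, zero_add, ← Finset.mul_sum]
  have e3 : ∑ i, Stmt.pd i (fun y => √(1 + W y)) y * Stmt.pd i lam y =
      (∑ i, Stmt.pd i W y * Stmt.pd i lam y) / (2 * √(1 + W y)) := by
    rw [Finset.sum_div]
    exact Finset.sum_congr rfl fun i _ => by rw [hpψ]; ring
  have e4 : trL lam D.K y = kap lam D.K y * lapL lam y := by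
    unfold kap
    field_simp
  rw [e1, e1, e2, e3, hJ, e4] at h1
  have e5 : ∑ i, Stmt.pd i (Stmt.pd i lam) y = lapL lam y := rfl
  rw [e5] at h1
  generalize (∑ i, Stmt.pd i (kap lam D.K) y * Stmt.pd i lam y) = k' at *
  generalize (∑ i, ∑ j, Stmt.pd i (Stmt.pd j lam) y * Stmt.pd i (Stmt.pd j lam) y) = b2 at *
  generalize (∑ i, Stmt.pd i W y * Stmt.pd i lam y) = w' at *
  generalize nn lam D.K y = ν at *
  generalize kap lam D.K y = κ at *
  generalize lapL lam y = L at *
  have hq : 1 / (1 + W y) = (1 / √(1 + W y)) ^ 2 := by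
    rw [div_pow, one_pow, Real.sq_sqrt hp.le]
  have hq1 : √(1 + W y) * (1 / √(1 + W y)) = 1 := by field_simp
  have e6 : w' / (2 * √(1 + W y)) = w' * (1 / √(1 + W y)) / 2 := by ring
  rw [hq, e6] at h1
  have h2 : L * k' = L * ((1 / √(1 + W y)) ^ 2 * ν) := by
    linear_combination (-1) * h1 - (κ * b2 - κ * L ^ 2 +
      κ * L * w' * (1 / √(1 + W y)) ^ 2 / 2 - (1 / √(1 + W y)) ^ 2 * ν * L) * hq1
  have h3 := mul_left_cancel₀ hl.ne' h2
  rw [h3, ← hq]
  field_simp

end Vale.Agent.P366.CLam
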