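import Vale.Agent.P366.CL.X

/-! The distance parameter of the parallel surfaces of a null cone body: derivatives. -/

open MeasureTheory Metric Filter Topology Set
open scoped ContDiff ENNReal

noncomputable section
namespace Vale.Agent.P366.CLam

open Vale.Agent.P366 (pd E)
open Vale.Agent.P366.H353.N
open Vale.Agent.P366.Kerr (NullCone Psi)
open Vale.Agent.P366.KSN (Y dts sg Ms Ws posU' Psi_apply Y_apply Y_eq U_smul norm_smul_unit
  exists_unit Y_inj Psi_contDiffAt fderiv_Psi hs_H_smul fderiv_Psi_Y fderiv_Psi_inj Psi_map_nhds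
  U_cont eventually_P Y_cont fderiv_Psi_symm pd_contDiffAt pd_contAt ray_closed hs_symm_at
  pd_coord_div_norm hs_contAt sg_eq dts_pos sum_xx Ws_x Ws_x' hs_H_x pr_x kd_comm sum_kd_mul
  sg_pos_of)

variable {n : ℕ} {C : NullCone n} {lam : E n → ℝ} {D : Stmt.Exterior n} {x y z : E n} {s t : ℝ}

/-- `λ = s` at the point `y = ∇H(ν) + s ν` of the exterior `D` of the surface `s = U(ν)`. -/
structure LamS (C : NullCone n) (lam : E n → ℝ) (D : Stmt.Exterior n) : Prop where
  dom : ∀ y, 0 ≤ D.F y ↔ ∃ x, x ≠ 0 ∧ C.U x ≤ ‖x‖ ∧ Psi C.H x = y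
  bdF : ∀ x, x ≠ 0 → ‖x‖ = C.U x → D.F (Psi C.H x) = 0
  smL : ∀ y, 0 ≤ D.F y → ContDiffAt ℝ ∞ lam y
  eqL : ∀ x, x ≠ 0 → C.U x ≤ ‖x‖ → lam (Psi C.H x) = ‖x‖

/-- the points of the exterior -/
theorem mem_iff (hS : LamS C lam D) :
    0 ≤ D.F y ↔ ∃ x s, ‖x‖ = 1 ∧ C.U x ≤ s ∧ Y C.H x s = y := by
  rw [hS.dom y]
  constructor
  · rintro ⟨z, hz, hU, hy⟩
    obtain ⟨x, hx, hzx⟩ := exists_unit hz
    have hn : 0 < ‖z‖ := norm_pos_iff.2 hz
    have hUx : C.U z = C.U x := by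
      conv_lhs => rw [hzx]
      exact U_smul C (ne_zero_of_one hx) hn
    refine ⟨x, ‖z‖, hx, hUx ▸ hU, ?_⟩
    rw [← Y_eq C hx hn, ← hzx, hy]
  · rintro ⟨x, s, hx, hU, hy⟩
    have hs : 0 < s := (posU' C hx).trans_le hU
    have hx0 := ne_zero_of_one hx
    refine ⟨s • x, smul_ne_zero hs.ne' hx0, ?_, ?_⟩
    · rw [U_smul C hx0 hs, norm_smul_unit hx hs.le]
      exact hU
    · rw [Y_eq C hx hs, hy]

theorem lam_Y (hS : LamS C lam D) (hx : ‖x‖ = 1) (hs : C.U x ≤ s) :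
    lam (Y C.H x s) = s := by
  have h0 : 0 < s := (posU' C hx).trans_le hs
  have hx0 := ne_zero_of_one hx
  rw [← Y_eq C hx h0, hS.eqL (s • x) (smul_ne_zero h0.ne' hx0)
    (by rw [U_smul C hx0 h0, norm_smul_unit hx h0.le]; exact hs), norm_smul_unit hx h0.le]

theorem mem_Y (hS : LamS C lam D) (hx : ‖x‖ = 1) (hs : C.U x ≤ s) :
    0 ≤ D.F (Y C.H x s) := (mem_iff hS).2 ⟨x, s, hx, hs, rfl⟩

/-- points of the exterior near a ray -/
theorem Psi_mem (hS : LamS C lam D) (hz : z ≠ 0) (hU : C.U z ≤ ‖z‖) :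
    0 ≤ D.F (Psi C.H z) := (hS.dom _).2 ⟨z, hz, hU, rfl⟩

theorem F_pos (hS : LamS C lam D) (hx : ‖x‖ = 1) (hs : C.U x < s) :
    0 < D.F (Y C.H x s) := by
  have h0 : 0 < s := (posU' C hx).trans hs
  have hge : 0 ≤ D.F (Y C.H x s) := mem_Y hS hx hs.le
  rcases hge.lt_or_eq with h | h
  · exact h
  exfalso
  have hmin : IsLocalMin D.F (Y C.H x s) := by
    have h1 : ∀ᶠ y in 𝓝 (Psi C.H (s • x)), 0 ≤ D.F y := by
      rw [← Psi_map_nhds C hx hs.le, eventually_map]
      filter_upwards [eventually_P C hx hs] with z hz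
      exact Psi_mem hS hz.1 hz.2.le
    rw [Y_eq C hx h0] at h1
    filter_upwards [h1] with y hy
    rw [← h]
    exact hy
  obtain ⟨i, hi⟩ := D.dom.2.1 _ h.symm
  apply hi
  have hsm : DifferentiableAt ℝ D.F (Y C.H x s) := D.dom.1.differentiable (by simp) _
  rw [Vale.Agent.P366.Bridge.pd_eq hsm, Vale.Agent.P366.pd, hmin.fderiv_eq_zero]
  rfl

theorem lam_Psi_eventually (hS : LamS C lam D) (hx : ‖x‖ = 1) (hs : C.U x < s) :
    (fun z => lam (Psi C.H z)) =ᶠ[𝓝 (s • x)] fun z => ‖z‖ := by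
  filter_upwards [eventually_P C hx hs] with z hz
  exact hS.eqL z hz.1 hz.2.le

/-- the interior version -/
theorem pd_lam_Y_lt (hS : LamS C lam D) (hx : ‖x‖ = 1) (hs : C.U x < s) (i : Fin n) :
    pd i lam (Y C.H x s) = x i := by
  have h0 : 0 < s := (posU' C hx).trans hs
  have hx0 := ne_zero_of_one hx
  have hz : s • x ≠ 0 := smul_ne_zero h0.ne' hx0
  have hL : DifferentiableAt ℝ lam (Psi C.H (s • x)) := by
    rw [Y_eq C hx h0]
    exact (hS.smL _ (mem_Y hS hx hs.le)).differentiableAt (by simp)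
  have h1 := hL.hasFDerivAt.comp (s • x)
    ((Psi_contDiffAt C hz).differentiableAt (by simp)).hasFDerivAt
  have h2 : HasFDerivAt (fun z : E n => ‖z‖) (fderiv ℝ (fun z : E n => ‖z‖) (s • x)) (s • x) :=
    ((Sm.norm (s • x) hz).differentiableAt (by simp)).hasFDerivAt
  have h3 := (h2.congr_of_eventuallyEq (lam_Psi_eventually hS hx hs)).unique h1
  -- the difference of the gradients
  let g : E n := WithLp.toLp 2 fun i => pd i lam (Psi C.H (s • x)) - x i
  have key : ∀ v : E n, ∑ i, pd i lam (Psi C.H (s • x)) * (fderiv ℝ (Psi C.H) (s • x) v i) =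
      ∑ i, x i * v i := by
    intro v
    have h4 := congrArg (fun L : E n →L[ℝ] ℝ => L v) h3
    have h5 : fderiv ℝ (fun z : E n => ‖z‖) (s • x) v =
        fderiv ℝ lam (Psi C.H (s • x)) (fderiv ℝ (Psi C.H) (s • x) v) := h4
    rw [Vale.Agent.P366.fderiv_eq_sum_pd, Vale.Agent.P366.fderiv_eq_sum_pd lam] at h5
    rw [show ∑ i, pd i lam (Psi C.H (s • x)) * (fderiv ℝ (Psi C.H) (s • x) v i) =
      ∑ i, (fderiv ℝ (Psi C.H) (s • x) v i) * pd i lam (Psi C.H (s • x)) from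
      Finset.sum_congr rfl fun i _ => mul_comm _ _, ← h5]
    refine Finset.sum_congr rfl fun i _ => ?_
    rw [pd_norm' hz, norm_smul_unit hx h0.le]
    have hs0 := h0.ne'
    simp only [PiLp.smul_apply, smul_eq_mul]
    field_simp
  have hg : fderiv ℝ (Psi C.H) (s • x) g = 0 := by
    have hxx : ∀ v : E n, ∑ i, x i * (fderiv ℝ (Psi C.H) (s • x) v i) = ∑ i, x i * v i := by
      intro v
      rw [fderiv_Psi_symm C hx h0 x v]
      refine Finset.sum_congr rfl fun i _ => ?_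
      rw [fderiv_Psi_Y C hx h0, Ws_x C hx i, sum_xx hx]
      ring
    have hv : ∀ v : E n, ∑ i, v i * (fderiv ℝ (Psi C.H) (s • x) g i) = 0 := by
      intro v
      rw [← fderiv_Psi_symm C hx h0 g v]
      have hgi : ∀ i, g i = pd i lam (Psi C.H (s • x)) - x i := fun i => rfl
      have h4 := key v
      have h5 := hxx v
      simp only [hgi, sub_mul, Finset.sum_sub_distrib]
      rw [h4, h5, sub_self]
    ext i
    have := hv (EuclideanSpace.single i 1)
    simpa using this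
  have := fderiv_Psi_inj C hx hs.le hg
  have h6 : pd i lam (Psi C.H (s • x)) - x i = 0 := congrArg (fun g : E n => g i) this
  rw [Y_eq C hx h0] at h6
  linarith

theorem pd_lam_Y (hS : LamS C lam D) (hx : ‖x‖ = 1) (hs : C.U x ≤ s) (i : Fin n) :
    pd i lam (Y C.H x s) = x i := by
  rcases hs.lt_or_eq with h | h
  · exact pd_lam_Y_lt hS hx h i
  · have hc : ContinuousAt (fun t => pd i lam (Y C.H x t)) s :=
      ContinuousAt.comp (f := Y C.H x) (pd_contAt (hS.smL _ (mem_Y hS hx hs)) i)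
        (Y_cont C.H x).continuousAt
    exact ray_closed hc fun t ht => pd_lam_Y_lt hS hx (h ▸ ht) i

/-- the gradient of `λ` at the points `Psi z` -/
theorem pd_lam_Psi (hS : LamS C lam D) (hz : z ≠ 0) (hU : C.U z ≤ ‖z‖) (i : Fin n) :
    pd i lam (Psi C.H z) = z i / ‖z‖ := by
  obtain ⟨x, hx, hzx⟩ := exists_unit hz
  have hn : 0 < ‖z‖ := norm_pos_iff.2 hz
  have hUx : C.U x ≤ ‖z‖ := by
    rw [← U_smul C (ne_zero_of_one hx) hn, ← hzx]
    exact hU
  have h1 : Psi C.H z = Y C.H x ‖z‖ := by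
    rw [← Y_eq C hx hn, ← hzx]
  rw [h1, pd_lam_Y hS hx hUx]
  have h2 : z i = ‖z‖ * x i := by
    conv_lhs => rw [hzx]
    simp
  rw [h2]
  field_simp

/-- the interior version of `D²λ W = 1` -/
theorem hs_lam_Y_aux (hS : LamS C lam D) (hx : ‖x‖ = 1) (hs : C.U x < s) (i j : Fin n) :
    ∑ k, H353.N.hs lam i k (Y C.H x s) * (H353.N.hs C.H k j x + s * kd k j) = pr x i j := by
  have h0 : 0 < s := (posU' C hx).trans hs
  have hx0 := ne_zero_of_one hx
  have hz : s • x ≠ 0 := smul_ne_zero h0.ne' hx0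
  have hsm : ContDiffAt ℝ ∞ lam (Psi C.H (s • x)) := by
    rw [Y_eq C hx h0]
    exact hS.smL _ (mem_Y hS hx hs.le)
  have hd1 : DifferentiableAt ℝ (pd i lam) (Psi C.H (s • x)) :=
    (pd_contDiffAt hsm i).differentiableAt (by simp)
  have h1 := hd1.hasFDerivAt.comp (s • x)
    ((Psi_contDiffAt C hz).differentiableAt (by simp)).hasFDerivAt
  have he : (fun z => pd i lam (Psi C.H z)) =ᶠ[𝓝 (s • x)] fun z => z i / ‖z‖ := by
    filter_upwards [eventually_P C hx hs] with z hz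
    exact pd_lam_Psi hS hz.1 hz.2.le i
  have h2 : fderiv ℝ (fun z : E n => z i / ‖z‖) (s • x) =
      (fderiv ℝ (pd i lam) (Psi C.H (s • x))).comp (fderiv ℝ (Psi C.H) (s • x)) := by
    rw [← he.fderiv_eq]
    exact h1.fderiv
  have h3 := congrArg (fun L : E n →L[ℝ] ℝ => L (EuclideanSpace.single j 1)) h2
  have h4 : pd j (fun z : E n => z i / ‖z‖) (s • x) = fderiv ℝ (pd i lam) (Psi C.H (s • x))
      (fderiv ℝ (Psi C.H) (s • x) (EuclideanSpace.single j 1)) := h3
  rw [pd_coord_div_norm hz, Vale.Agent.P366.fderiv_eq_sum_pd, norm_smul_unit hx h0.le] at h4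
  have h5 : ∀ k, fderiv ℝ (Psi C.H) (s • x) (EuclideanSpace.single j 1) k =
      s⁻¹ * H353.N.hs C.H k j x + kd k j := by
    intro k
    rw [fderiv_Psi C hz]
    have e1 : ∑ l, H353.N.hs C.H k l (s • x) * (EuclideanSpace.single j (1 : ℝ) : E n) l =
        H353.N.hs C.H k j (s • x) := by
      rw [Finset.sum_eq_single j]
      · simp
      · intro b _ hb
        simp [hb]
      · simp
    rw [e1, hs_H_smul C hx h0]
    simp [kd]
  simp only [h5] at h4
  rw [Y_eq C hx h0] at h4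
  have h6 : ∀ k, pd k (pd i lam) (Y C.H x s) = H353.N.hs lam i k (Y C.H x s) := by
    intro k
    rw [hs_symm_at (hS.smL _ (mem_Y hS hx hs.le)) i k]
    rfl
  simp only [h6] at h4
  rw [kd_comm j i] at h4
  have hs0 := h0.ne'
  simp only [PiLp.smul_apply, smul_eq_mul] at h4
  have e7 : s * (kd i j / s - s * x i * (s * x j) / s ^ 3) = pr x i j := by
    unfold pr
    field_simp
  rw [← e7, h4, Finset.mul_sum]
  refine Finset.sum_congr rfl fun k _ => ?_
  field_simp

theorem hs_lam_mul_x_lt (hS : LamS C lam D) (hx : ‖x‖ = 1) (hs : C.U x < s) (i : Fin n) :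
    ∑ k, H353.N.hs lam i k (Y C.H x s) * x k = 0 := by
  have h0 : 0 < s := (posU' C hx).trans hs
  have h := hs_lam_Y_aux hS hx hs i
  have e1 : ∑ j, (∑ k, H353.N.hs lam i k (Y C.H x s) *
      (H353.N.hs C.H k j x + s * kd k j)) * x j = 0 := by
    simp only [h]
    exact pr_x hx i
  have e2 : s * ∑ k, H353.N.hs lam i k (Y C.H x s) * x k = 0 := by
    rw [← e1]
    simp only [Finset.sum_mul]
    rw [Finset.sum_comm, Finset.mul_sum]
    refine Finset.sum_congr rfl fun k _ => ?_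
    have e3 : ∀ j, H353.N.hs lam i k (Y C.H x s) * (H353.N.hs C.H k j x + s * kd k j) * x j =
        H353.N.hs lam i k (Y C.H x s) * (H353.N.hs C.H k j x * x j) +
          H353.N.hs lam i k (Y C.H x s) * s * (kd k j * x j) := by
      intro j
      ring
    simp only [e3, Finset.sum_add_distrib, ← Finset.mul_sum, hs_H_x C hx k, sum_kd_mul]
    ring
  exact (mul_eq_zero.1 e2).resolve_left h0.ne'

theorem hs_lam_mul_x (hS : LamS C lam D) (hx : ‖x‖ = 1) (hs : C.U x ≤ s) (i : Fin n) :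
    ∑ k, H353.N.hs lam i k (Y C.H x s) * x k = 0 := by
  rcases hs.lt_or_eq with h | h
  · exact hs_lam_mul_x_lt hS hx h i
  · have hc : ContinuousAt (fun t => ∑ k, H353.N.hs lam i k (Y C.H x t) * x k) s := by
      refine tendsto_finsetSum _ fun k _ => ?_
      exact (ContinuousAt.comp (f := Y C.H x) (hs_contAt (hS.smL _ (mem_Y hS hx hs)) i k)
        (Y_cont C.H x).continuousAt).mul continuousAt_const
    exact ray_closed (g := fun t => ∑ k, H353.N.hs lam i k (Y C.H x t) * x k) hc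
      fun t ht => hs_lam_mul_x_lt hS hx (h ▸ ht) i

/-- `D²λ = W⁻¹` -/
theorem hs_lam_Y (hS : LamS C lam D) (hx : ‖x‖ = 1) (hs : C.U x ≤ s) (i j : Fin n) :
    ∑ k, H353.N.hs lam i k (Y C.H x s) * Ws C.H s x k j = pr x i j := by
  have key : ∀ t, C.U x < t → ∑ k, H353.N.hs lam i k (Y C.H x t) * Ws C.H t x k j = pr x i j := by
    intro t ht
    have h1 := hs_lam_Y_aux hS hx ht i j
    have h2 := hs_lam_mul_x_lt hS hx ht i
    have h3 : ∀ k, H353.N.hs lam i k (Y C.H x t) * Ws C.H t x k j =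
        H353.N.hs lam i k (Y C.H x t) * (H353.N.hs C.H k j x + t * kd k j) -
          (H353.N.hs lam i k (Y C.H x t) * x k) * (t * x j) := by
      intro k
      unfold Ws pr
      ring
    simp only [h3, Finset.sum_sub_distrib, ← Finset.sum_mul, h2, h1]
    ring
  rcases hs.lt_or_eq with h | h
  · exact key s h
  · have hc : ContinuousAt (fun t => ∑ k, H353.N.hs lam i k (Y C.H x t) * Ws C.H t x k j) s := by
      refine tendsto_finsetSum _ fun k _ => ?_
      refine (ContinuousAt.comp (f := Y C.H x) (hs_contAt (hS.smL _ (mem_Y hS hx hs)) i k)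
        (Y_cont C.H x).continuousAt).mul ?_
      unfold Ws
      fun_prop
    exact ray_closed (g := fun t => ∑ k, H353.N.hs lam i k (Y C.H x t) * Ws C.H t x k j) hc
      fun t ht => key t (h ▸ ht)

/-- `(D²λ + x xᵀ) M = 1` -/
theorem lam_mul_Ms (hS : LamS C lam D) (hx : ‖x‖ = 1) (hs : C.U x ≤ s) :
    (Matrix.of fun i j => H353.N.hs lam i j (Y C.H x s) + x i * x j) * Ms C.H s x = 1 := by
  ext i j
  rw [Matrix.mul_apply]
  simp only [Matrix.of_apply, Ms]
  have e : ∀ k, (H353.N.hs lam i k (Y C.H x s) + x i * x k) * (Ws C.H s x k j + x k * x j) =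
      H353.N.hs lam i k (Y C.H x s) * Ws C.H s x k j +
        (H353.N.hs lam i k (Y C.H x s) * x k) * x j + x i * (x k * Ws C.H s x k j) +
        (x i * x j) * (x k * x k) := by
    intro k
    ring
  simp only [e, Finset.sum_add_distrib, hs_lam_Y hS hx hs, ← Finset.sum_mul,
    hs_lam_mul_x hS hx hs, ← Finset.mul_sum, Ws_x' C hx j, sum_xx hx]
  unfold pr kd
  rw [Matrix.one_apply]
  ring

theorem Ms_inv (hS : LamS C lam D) (hx : ‖x‖ = 1) (hs : C.U x ≤ s) :
    (Ms C.H s x)⁻¹ = Matrix.of fun i j => H353.N.hs lam i j (Y C.H x s) + x i * x j :=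
  Matrix.inv_eq_left_inv (lam_mul_Ms hS hx hs)

theorem hs_lam_eq (hS : LamS C lam D) (hx : ‖x‖ = 1) (hs : C.U x ≤ s) (i j : Fin n) :
    H353.N.hs lam i j (Y C.H x s) = (Ms C.H s x)⁻¹ i j - x i * x j := by
  rw [Ms_inv hS hx hs]
  simp

theorem lap_lam_eq (hS : LamS C lam D) (hx : ‖x‖ = 1) (hs : C.U x ≤ s) :
    lap lam (Y C.H x s) = (Ms C.H s x)⁻¹.trace - 1 := by
  unfold lap Matrix.trace
  simp only [Matrix.diag_apply, hs_lam_eq hS hx hs, Finset.sum_sub_distrib, sum_xx hx]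

theorem lap_lam_Y (hS : LamS C lam D) (hx : ‖x‖ = 1) (hs : C.U x ≤ s) :
    lap lam (Y C.H x s) * dts C.H s x = sg C.H s x := by
  rw [lap_lam_eq hS hx hs, sg_eq C hx hs, mul_comm]

/-- the gradient of `λ` is a unit vector on the exterior -/
theorem gsq_lam' (hS : LamS C lam D) (hy : 0 ≤ D.F y) : ∑ i, pd i lam y ^ 2 = 1 := by
  obtain ⟨x, s, hx, hs, rfl⟩ := (mem_iff hS).1 hy
  simp only [pd_lam_Y hS hx hs, sq]
  exact sum_xx hx

/-- the gradient of `λ` is a unit vector near interior points -/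
theorem gsq_lam (hS : LamS C lam D) (hy : 0 < D.F y) :
    ∀ᶠ z in 𝓝 y, ∑ i, pd i lam z ^ 2 = 1 := by
  have h1 : ∀ᶠ z in 𝓝 y, 0 < D.F z :=
    (D.dom.1.continuous.continuousAt).eventually (lt_mem_nhds hy)
  filter_upwards [h1] with z hz
  exact gsq_lam' hS hz.le

theorem lap_lam_pos (hn : 2 ≤ n) (hS : LamS C lam D) (hx : ‖x‖ = 1) (hs : C.U x ≤ s) :
    0 < lap lam (Y C.H x s) := by
  have h1 := sg_pos_of C hn hx hs
  rw [← lap_lam_Y hS hx hs] at h1
  exact (pos_iff_pos_of_mul_pos h1).2 (dts_pos C hx hs)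

/-- the leaves of an exterior foliated by the parallel surfaces -/
theorem _root_.Vale.Agent.P366.CL.IsLeafExt.toLamS {W : E n → ℝ}
    (hL : Vale.Agent.P366.CL.IsLeafExt C lam W D) : LamS C lam D :=
  ⟨hL.dom, hL.bdF, hL.smL, hL.eqL⟩

/-- the gradient of `λ`, in the derivatives of the statement -/
theorem spd_lam_Y (hS : LamS C lam D) (hx : ‖x‖ = 1) (hs : C.U x ≤ s) (i : Fin n) :
    Stmt.pd i lam (Y C.H x s) = x i := by
  rw [Vale.Agent.P366.Bridge.pd_eq
    ((hS.smL _ (mem_Y hS hx hs)).differentiableAt (by simp)), pd_lam_Y hS hx hs]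

end Vale.Agent.P366.CLam
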