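import Vale.Agent.P366.H208.CL.Lam
import Vale.Agent.P366.H222.K.Theta

/-! The null expansion of a level set for the metric `δ + W dλ ⊗ dλ`. -/

open MeasureTheory Metric Filter Topology Set
open scoped ContDiff ENNReal

noncomputable section
namespace Vale.Agent.P366.Stmt.CLt



variable {n : ℕ}

/-- double sums with the Kronecker delta -/
lemma dsum (w : ℝ) (ν : Fin n → ℝ) (T : Fin n → Fin n → ℝ) :
    ∑ i, ∑ j, ((if i = j then (1 : ℝ) else 0) - w * ν i * ν j) * T i j =
      ∑ i, T i i - w * ∑ i, ∑ j, ν i * ν j * T i j := by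
  have e : ∀ i j, ((if i = j then (1 : ℝ) else 0) - w * ν i * ν j) * T i j =
      (if i = j then T i j else 0) - w * (ν i * ν j * T i j) := by
    intro i j; split_ifs <;> ring
  simp only [e, Finset.sum_sub_distrib, Finset.sum_ite_eq, Finset.mem_univ, if_true,
    ← Finset.mul_sum]

/-- The inverse of `δ + w ν νᵀ`. -/
lemma up_rank {g : Field n} {y : E n} {ν : Fin n → ℝ} {w : ℝ} (one : ∑ i, ν i ^ 2 = 1)
    (hw : 0 < 1 + w) (hg : ∀ i j, g y i j = (if i = j then 1 else 0) + w * ν i * ν j)
    (i j : Fin n) : up g i j y = (if i = j then 1 else 0) - w / (1 + w) * ν i * ν j := by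
  have hm : (Matrix.of fun i j => (if i = j then (1 : ℝ) else 0) - w / (1 + w) * ν i * ν j) *
      mat g y = 1 := by
    ext a b
    rw [Matrix.mul_apply]
    have e : ∀ k, (Matrix.of fun i j => (if i = j then (1 : ℝ) else 0) -
        w / (1 + w) * ν i * ν j) a k * mat g y k b =
        (if a = k then (if k = b then 1 else 0) + w * ν k * ν b else 0) -
          (if k = b then w / (1 + w) * ν a * ν k else 0) -
          w / (1 + w) * w * ν a * ν b * ν k ^ 2 := by
      intro k
      unfold mat
      rw [Matrix.of_apply, hg]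
      split_ifs <;> ring
    simp only [e, Finset.sum_sub_distrib, Finset.sum_ite_eq, Finset.sum_ite_eq', Finset.mem_univ,
      if_true, ← Finset.mul_sum, one]
    rw [Matrix.one_apply]
    have hw' : (1 + w) ≠ 0 := hw.ne'
    field_simp
    ring
  unfold up
  rw [Matrix.inv_eq_left_inv hm, Matrix.of_apply]

/-- The null expansion at a point, from the jets of the metric and of the defining function. -/
theorem theta_pt {g K : Field n} {F : E n → ℝ} {y : E n} {ν : Fin n → ℝ} {w a : ℝ}
    {L : Fin n → Fin n → ℝ} {dw : Fin n → ℝ} (one : ∑ i, ν i ^ 2 = 1)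
    (hw : 0 < 1 + w) (ha : 0 < a)
    (hg : ∀ i j, g y i j = (if i = j then 1 else 0) + w * ν i * ν j)
    (hF : ∀ i, pd i F y = a * ν i) (hLs : ∀ i j, L i j = L j i)
    (hLν : ∀ i, ∑ j, L i j * ν j = 0)
    (hpg : ∀ k i j, pd k (fun z => g z i j) y =
      dw k * ν i * ν j + w * (L k i * ν j + ν i * L k j))
    (hFF : ∑ i, pd i (pd i F) y - ∑ i, ∑ j, ν i * ν j * pd i (pd j F) y = a * ∑ i, L i i) :
    thetaPlus g K F y = (∑ i, L i i) / √(1 + w) +
      (∑ i, K y i i - ∑ i, ∑ j, ν i * ν j * K y i j) := by
  have hup := up_rank one hw hg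
  obtain ⟨s, hs⟩ : ∃ s, s = √(1 + w) := ⟨_, rfl⟩
  have hss : s ^ 2 = 1 + w := by rw [hs]; exact Real.sq_sqrt hw.le
  have hs0 : 0 < s := by rw [hs]; exact Real.sqrt_pos.2 hw
  have hw' : (1 + w) ≠ 0 := hw.ne'
  have hup1 : ∀ i, ∑ j, up g i j y * ν j = ν i / (1 + w) := by
    intro i
    have e : ∀ j, up g i j y * ν j = (if i = j then ν j else 0) -
        w / (1 + w) * ν i * ν j ^ 2 := by
      intro j; rw [hup]; split_ifs <;> ring
    simp only [e, Finset.sum_sub_distrib, Finset.sum_ite_eq, Finset.mem_univ, if_true,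
      ← Finset.mul_sum, one]
    field_simp
    ring
  have hcov : covNorm g (fun j => pd j F) y = a / s := by
    unfold covNorm
    have e : ∑ i, ∑ j, up g i j y * pd i F y * pd j F y = (a / s) ^ 2 := by
      have e1 : ∀ i, ∑ j, up g i j y * pd i F y * pd j F y = a ^ 2 / (1 + w) * ν i ^ 2 := by
        intro i
        have e2 : ∀ j, up g i j y * pd i F y * pd j F y = a ^ 2 * ν i * (up g i j y * ν j) := by
          intro j; rw [hF, hF]; ring
        simp only [e2, ← Finset.mul_sum, hup1]
        ring
      simp only [e1, ← Finset.mul_sum, one]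
      rw [div_pow, hss]; ring
    rw [e, Real.sqrt_sq (div_pos ha hs0).le]
  have hnrm : ∀ i, nrm g F i y = ν i / s := by
    intro i
    unfold nrm
    rw [hcov]
    have e2 : ∀ j, up g i j y * pd j F y = a * (up g i j y * ν j) := by
      intro j; rw [hF]; ring
    simp only [e2, ← Finset.mul_sum, hup1]
    rw [← hss]
    field_simp
  have htr : ∀ T : Field n, trS g T F y =
      ∑ i, T y i i - ∑ i, ∑ j, ν i * ν j * T y i j := by
    intro T
    unfold trS tr
    simp only [hup, hnrm]
    rw [dsum]
    have e2 : ∑ i, ∑ j, T y i j * (ν i / s) * (ν j / s) =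
        (∑ i, ∑ j, ν i * ν j * T y i j) / (1 + w) := by
      rw [Finset.sum_div]
      refine Finset.sum_congr rfl fun i _ => ?_
      rw [Finset.sum_div]
      refine Finset.sum_congr rfl fun j _ => ?_
      rw [← hss]
      field_simp
    rw [e2]
    field_simp
    ring
  -- the Christoffel symbols on the normal
  obtain ⟨q, hq⟩ : ∃ q, q = ∑ l, ν l * dw l := ⟨_, rfl⟩
  have hLν' : ∀ i, ∑ j, ν j * L i j = 0 := fun i => by
    rw [← hLν i]; exact Finset.sum_congr rfl fun j _ => mul_comm _ _
  have hLν2 : ∀ i, ∑ j, ν j * L j i = 0 := fun i => by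
    rw [← hLν i]; exact Finset.sum_congr rfl fun j _ => by rw [hLs]; ring
  have hone : ∑ i, ν i * ν i = 1 := by
    rw [← one]; exact Finset.sum_congr rfl fun i _ => by ring
  have hchr : ∀ i j, ∑ k, chr g k i j y * pd k F y =
      a / (2 * (1 + w)) * (dw i * ν j + dw j * ν i + 2 * w * L i j - q * ν i * ν j) := by
    intro i j
    have e1 : ∀ l, pd i (fun z => g z j l) y + pd j (fun z => g z i l) y -
        pd l (fun z => g z i j) y = (dw i * ν j + dw j * ν i + 2 * w * L i j) * ν l +
          w * ν j * L i l + w * ν i * L j l - dw l * ν i * ν j - w * ν j * L l i -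
          w * ν i * L l j := by
      intro l
      rw [hpg, hpg, hpg, hLs j i]
      ring
    have e2 : ∑ k, chr g k i j y * pd k F y =
        a / 2 * ∑ l, (∑ k, up g l k y * ν k) * (pd i (fun z => g z j l) y +
          pd j (fun z => g z i l) y - pd l (fun z => g z i j) y) := by
      unfold chr
      simp only [hF, Finset.sum_mul, Finset.mul_sum, Finset.sum_div]
      rw [Finset.sum_comm]
      refine Finset.sum_congr rfl fun l _ => Finset.sum_congr rfl fun k _ => ?_
      have : up g k l y = up g l k y := by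
        rw [hup, hup]
        simp only [eq_comm]
        ring
      rw [this]
      ring
    rw [e2]
    simp only [hup1, e1]
    have e3 : ∀ l, ν l / (1 + w) * ((dw i * ν j + dw j * ν i + 2 * w * L i j) * ν l +
          w * ν j * L i l + w * ν i * L j l - dw l * ν i * ν j - w * ν j * L l i -
          w * ν i * L l j) = (1 + w)⁻¹ * ((dw i * ν j + dw j * ν i + 2 * w * L i j) * (ν l * ν l) +
          w * ν j * (ν l * L i l) + w * ν i * (ν l * L j l) - ν i * ν j * (ν l * dw l) -
          w * ν j * (ν l * L l i) - w * ν i * (ν l * L l j)) := by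
      intro l; field_simp
    simp only [e3, ← Finset.mul_sum, Finset.sum_add_distrib, Finset.sum_sub_distrib, hone, hLν',
      hLν2, ← hq]
    field_simp
    ring
  have hhess : trS g (hess g F) F y = a * (∑ i, L i i) / (1 + w) := by
    have hh : ∀ i j, hess g F y i j = pd i (pd j F) y -
        a / (2 * (1 + w)) * (dw i * ν j + dw j * ν i + 2 * w * L i j - q * ν i * ν j) := by
      intro i j
      unfold hess
      rw [hchr]
    rw [htr]
    have e1 : ∑ i, hess g F y i i = ∑ i, pd i (pd i F) y -
        a / (2 * (1 + w)) * (2 * q + 2 * w * ∑ i, L i i - q) := by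
      simp only [hh, Finset.sum_sub_distrib, ← Finset.mul_sum]
      congr 2
      have e : ∀ i, dw i * ν i + dw i * ν i + 2 * w * L i i =
          2 * (ν i * dw i) + 2 * w * L i i := fun i => by ring
      have e' : ∀ i, q * ν i * ν i = q * (ν i * ν i) := fun i => by ring
      simp only [e, e', Finset.sum_add_distrib, ← Finset.mul_sum, hone, ← hq]
      ring
    have e2 : ∑ i, ∑ j, ν i * ν j * hess g F y i j = ∑ i, ∑ j, ν i * ν j * pd i (pd j F) y -
        a / (2 * (1 + w)) * q := by
      have e : ∀ i, ∑ j, ν i * ν j * hess g F y i j = ∑ j, ν i * ν j * pd i (pd j F) y -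
          a / (2 * (1 + w)) * (ν i * dw i + q * (ν i * ν i) - q * (ν i * ν i)) := by
        intro i
        have e' : ∀ j, ν i * ν j * hess g F y i j = ν i * ν j * pd i (pd j F) y -
            a / (2 * (1 + w)) * (ν i * dw i * (ν j * ν j) +
            (ν i * ν i) * (ν j * dw j) + 2 * w * ν i * (ν j * L i j) -
            q * (ν i * ν i) * (ν j * ν j)) := fun j => by rw [hh]; ring
        simp only [e', ← Finset.mul_sum, Finset.sum_add_distrib, Finset.sum_sub_distrib, hone,
          hLν', ← hq]
        ring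
      have e' : ∀ i, ν i * dw i + q * (ν i * ν i) - q * (ν i * ν i) = ν i * dw i :=
        fun i => by ring
      simp only [e, e', Finset.sum_sub_distrib, ← Finset.mul_sum, ← hq]
    rw [e1, e2]
    have e3 : ∑ i, pd i (pd i F) y = a * ∑ i, L i i +
        ∑ i, ∑ j, ν i * ν j * pd i (pd j F) y := by linarith
    rw [e3]
    field_simp
    ring
  unfold thetaPlus
  rw [hhess, hcov, htr, ← hs, ← hss]
  congr 1
  field_simp

end Vale.Agent.P366.Stmt.CLt
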